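import Vale.Agent.P072.Closure

/-! On one class, bounded `log x` along the reaction vectors confines `x` to a box. -/

namespace Vale.Agent.P072

open Finset

variable {d : ℕ}

theorem dot_le_of_stoich (R : Finset (Cpx d × Cpx d)) :
    ∃ N : ℝ, 0 ≤ N ∧ ∀ v ∈ stoich R, ∀ (X : Fin d → ℝ) (M : ℝ), 0 ≤ M →
      (∀ r ∈ R, |dot (rvec r) X| ≤ M) → dot v X ≤ N * M * ∑ i, |v i| := by
  classical
  let L := Fintype.linearCombination ℝ (fun r : ↥R => rvec r.1)
  have hL : LinearMap.range L = stoich R := by
    rw [Fintype.range_linearCombination, stoich]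
    congr 1
    ext v; simp
  obtain ⟨s, hs⟩ := LinearMap.exists_rightInverse_of_surjective L.rangeRestrict
    (LinearMap.range_rangeRestrict L)
  refine ⟨(R.card : ℝ) * ‖LinearMap.toContinuousLinearMap s‖, by positivity, ?_⟩
  intro v hv X M hM hX
  rw [← hL] at hv
  set a := s ⟨v, hv⟩ with ha
  have hLa : L a = v := by
    have := congrArg (fun f => (f ⟨v, hv⟩ : Fin d → ℝ)) hs
    simpa [ha] using this
  have hnv : ‖v‖ ≤ ∑ i, |v i| :=
    (pi_norm_le_iff_of_nonneg (Finset.sum_nonneg fun i _ => abs_nonneg _)).2 fun i => by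
      rw [Real.norm_eq_abs]
      exact Finset.single_le_sum (f := fun i => |v i|) (fun j _ => abs_nonneg _) (mem_univ i)
  have hna : ∀ r, |a r| ≤ ‖LinearMap.toContinuousLinearMap s‖ * ∑ i, |v i| := by
    intro r
    rw [← Real.norm_eq_abs]
    refine (norm_le_pi_norm a r).trans ?_
    refine ((LinearMap.toContinuousLinearMap s).le_opNorm ⟨v, hv⟩).trans ?_
    exact mul_le_mul_of_nonneg_left hnv (norm_nonneg _)
  have hdot : dot v X = ∑ r, a r * dot (rvec r.1) X := by
    rw [← hLa]
    simp only [L, Fintype.linearCombination_apply, dot, Finset.mul_sum]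
    rw [Finset.sum_comm]
    refine Finset.sum_congr rfl fun i _ => ?_
    simp [Finset.sum_apply, Finset.sum_mul, mul_assoc]
  rw [hdot]
  have hsum : ∑ r, a r * dot (rvec r.1) X
      ≤ ∑ _r : ↥R, ‖LinearMap.toContinuousLinearMap s‖ * (∑ i, |v i|) * M := by
    refine Finset.sum_le_sum fun r _ => ?_
    refine (le_abs_self _).trans ?_
    rw [abs_mul]
    exact mul_le_mul (hna r) (hX r.1 r.2) (abs_nonneg _) (by positivity)
  refine hsum.trans_eq ?_
  simp only [Finset.sum_const, nsmul_eq_mul, Finset.card_univ, Fintype.card_coe]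
  ring

theorem exists_box (R : Finset (Cpx d × Cpx d)) {c : Fin d → ℝ} (hc : ∀ i, 0 < c i)
    {M : ℝ} (hM : 0 ≤ M) :
    ∃ a b, 0 < a ∧ ∀ x ∈ posClass R c,
      (∀ r ∈ R, |dot (rvec r) (fun i => Real.log (x i))| ≤ M) →
      ∀ i, x i ∈ Set.Icc a b := by
  classical
  obtain ⟨N, hN, hbound⟩ := dot_le_of_stoich R
  set Lc := ∑ i, |Real.log (c i)| with hLc
  have hLc0 : 0 ≤ Lc := Finset.sum_nonneg fun i _ => abs_nonneg _
  set C3 := N * M + Lc with hC3
  have hC30 : 0 ≤ C3 := by positivity
  set B := ∑ j, C3 * (c j * Real.exp C3) with hB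
  have hB0 : 0 ≤ B := Finset.sum_nonneg fun j _ => by have := hc j; positivity
  set U := C3 + 1 + ∑ j, 2 * B / c j with hU
  refine ⟨Real.exp (-(U + Lc)), Real.exp (U + Lc), Real.exp_pos _, ?_⟩
  intro x hx hsmall i
  set ψ : Fin d → ℝ := fun j =>
    |x j - c j| * (|Real.log (x j) - Real.log (c j)| - C3) with hψ
  have hlc : ∀ j, |Real.log (c j)| ≤ Lc := fun j =>
    Finset.single_le_sum (f := fun j => |Real.log (c j)|) (fun k _ => abs_nonneg _) (mem_univ j)
  have hsum : ∑ j, ψ j ≤ 0 := by
    have h1 := hbound _ hx.2 _ M hM hsmall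
    have h2 : ∀ j, ψ j ≤ (x j - c j) * Real.log (x j) + Lc * |x j - c j| - C3 * |x j - c j| := by
      intro j
      have hsign : |x j - c j| * |Real.log (x j) - Real.log (c j)|
          = (x j - c j) * (Real.log (x j) - Real.log (c j)) := by
        rw [← abs_mul, abs_of_nonneg]
        rcases le_total (c j) (x j) with h | h
        · exact mul_nonneg (by linarith) (by linarith [Real.log_le_log (hc j) h])
        · exact mul_nonneg_of_nonpos_of_nonpos (by linarith)
            (by linarith [Real.log_le_log (hx.1 j) h])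
      simp only [hψ]
      rw [mul_sub, hsign]
      have h3 : -((x j - c j) * Real.log (c j)) ≤ Lc * |x j - c j| := by
        refine (neg_le_abs _).trans ?_
        rw [abs_mul, mul_comm]
        exact mul_le_mul_of_nonneg_right (hlc j) (abs_nonneg _)
      nlinarith
    refine (Finset.sum_le_sum fun j _ => h2 j).trans ?_
    rw [Finset.sum_sub_distrib, Finset.sum_add_distrib, ← Finset.mul_sum, ← Finset.mul_sum]
    have h4 : dot (x - c) (fun i => Real.log (x i)) = ∑ j, (x j - c j) * Real.log (x j) := rfl
    rw [h4] at h1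
    simp only [Pi.sub_apply] at h1
    rw [hC3]; linarith
  have hlow : ∀ j, -(C3 * (c j * Real.exp C3)) ≤ ψ j := by
    intro j
    have hcj := hc j
    rcases le_total C3 |Real.log (x j) - Real.log (c j)| with h | h
    · have : 0 ≤ ψ j := mul_nonneg (abs_nonneg _) (by linarith)
      have : 0 ≤ C3 * (c j * Real.exp C3) := by positivity
      linarith
    · have h1 := (abs_le.1 h).2
      have h2 : x j ≤ c j * Real.exp C3 := by
        rw [← Real.exp_log (hx.1 j)]
        calc Real.exp (Real.log (x j)) ≤ Real.exp (Real.log (c j) + C3) :=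
              Real.exp_le_exp.2 (by linarith)
          _ = c j * Real.exp C3 := by rw [Real.exp_add, Real.exp_log hcj]
      have h3 : c j ≤ c j * Real.exp C3 := le_mul_of_one_le_right hcj.le (Real.one_le_exp hC30)
      have h4 : |x j - c j| ≤ c j * Real.exp C3 :=
        abs_le.2 ⟨by linarith [hx.1 j], by linarith⟩
      simp only [hψ]
      nlinarith [abs_nonneg (x j - c j), abs_nonneg (Real.log (x j) - Real.log (c j))]
  have hψi : ψ i ≤ B := by
    rw [← Finset.add_sum_erase _ _ (mem_univ i)] at hsum
    have h1 : -B ≤ ∑ j ∈ univ.erase i, ψ j := by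
      refine le_trans ?_ (Finset.sum_le_sum fun j _ => hlow j)
      rw [Finset.sum_neg_distrib, neg_le_neg_iff]
      exact Finset.sum_le_sum_of_subset_of_nonneg (erase_subset _ _)
        (fun j _ _ => by have := hc j; positivity)
    linarith
  have hUi : |Real.log (x i) - Real.log (c i)| ≤ U := by
    set u := |Real.log (x i) - Real.log (c i)| with hu
    have hci := hc i
    have hterm : 2 * B / c i ≤ ∑ j, 2 * B / c j :=
      Finset.single_le_sum (f := fun j => 2 * B / c j)
        (fun j _ => by have := hc j; positivity) (mem_univ i)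
    rcases le_total u (C3 + 1) with h | h
    · have : 0 ≤ 2 * B / c i := by positivity
      linarith
    · have h2 : (2 : ℝ) ≤ Real.exp 1 := by have := Real.add_one_le_exp (1 : ℝ); linarith
      have hfar : c i / 2 ≤ |x i - c i| := by
        rcases le_abs.1 (show 1 ≤ u by linarith) with h1 | h1
        · have h3 : Real.exp (Real.log (c i) + 1) ≤ Real.exp (Real.log (x i)) :=
            Real.exp_le_exp.2 (by linarith)
          rw [Real.exp_add, Real.exp_log hci, Real.exp_log (hx.1 i)] at h3
          refine le_trans ?_ (le_abs_self _)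
          nlinarith
        · have h3 : Real.exp (Real.log (x i) + 1) ≤ Real.exp (Real.log (c i)) :=
            Real.exp_le_exp.2 (by linarith)
          rw [Real.exp_add, Real.exp_log hci, Real.exp_log (hx.1 i)] at h3
          refine le_trans ?_ (neg_le_abs _)
          nlinarith [hx.1 i]
      have h4 : (u - C3) * (c i / 2) ≤ B := by
        refine le_trans ?_ hψi
        simp only [hψ]
        rw [mul_comm (|x i - c i|)]
        exact mul_le_mul_of_nonneg_left hfar (by linarith)
      have h5 : u - C3 ≤ 2 * B / c i := by rw [le_div_iff₀ hci]; linarith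
      linarith
  have h1 := abs_le.1 hUi
  have h2 := abs_le.1 (hlc i)
  constructor
  · rw [← Real.exp_log (hx.1 i)]; exact Real.exp_le_exp.2 (by linarith)
  · rw [← Real.exp_log (hx.1 i)]; exact Real.exp_le_exp.2 (by linarith)

end Vale.Agent.P072
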