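import Vale.Agent.P072.Defs

/-! Finite sets of vectors closed, level by level, under one elimination step. -/

namespace Vale.Agent.P072

open Finset

variable {d : ℕ}

open scoped Classical in
/-- The complexes occurring in the reactions. -/
noncomputable def complexes (R : Finset (Cpx d × Cpx d)) : Finset (Cpx d) :=
  R.image Prod.fst ∪ R.image Prod.snd

/-- Euclidean pairing. -/
def dot (w g : Fin d → ℝ) : ℝ := ∑ i, w i * g i

/-- The unit vector of a coordinate. -/
def unit (i : Fin d) : Fin d → ℝ := fun j => if j = i then 1 else 0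

open scoped Classical in
/-- The vectors whose signs are tracked, before permuting coordinates. -/
noncomputable def baseVec (R : Finset (Cpx d × Cpx d)) : Finset (Fin d → ℝ) :=
  (complexes R ×ˢ complexes R).image rvec ∪ univ.image unit ∪
    univ.image (fun q : Fin d × Fin d => unit q.1 - unit q.2)

open scoped Classical in
/-- The tracked vectors up to permutation of coordinates, then closed under eliminations. -/
noncomputable def vecs (R : Finset (Cpx d × Cpx d)) : ℕ → Finset (Fin d → ℝ)
  | 0 => (univ ×ˢ baseVec R).image (fun q : Equiv.Perm (Fin d) × (Fin d → ℝ) => q.2 ∘ q.1)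
  | t + 1 => vecs R t ∪ ((vecs R t ×ˢ vecs R t) ×ˢ univ).image
      (fun q : ((Fin d → ℝ) × (Fin d → ℝ)) × Fin d =>
        q.1.1 - (q.1.1 q.2 / q.1.2 q.2) • q.1.2)

variable {R : Finset (Cpx d × Cpx d)}

theorem vecs_mono {s t : ℕ} (h : s ≤ t) : vecs R s ⊆ vecs R t := by
  induction t, h using Nat.le_induction with
  | base => exact subset_rfl
  | succ t _ ih =>
    intro w hw
    classical
    rw [vecs]
    exact mem_union_left _ (ih hw)

theorem elim_mem {t : ℕ} {w w' : Fin d → ℝ} (hw : w ∈ vecs R t) (hw' : w' ∈ vecs R t)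
    (k : Fin d) : w - (w k / w' k) • w' ∈ vecs R (t + 1) := by
  classical
  rw [vecs]
  exact mem_union_right _ (mem_image.2 ⟨((w, w'), k), by simp [hw, hw'], rfl⟩)

theorem base_mem {w : Fin d → ℝ} (hw : w ∈ baseVec R) : w ∈ vecs R 0 := by
  classical
  rw [vecs]
  exact mem_image.2 ⟨(1, w), by simp [hw], by simp⟩

theorem unit_mem (i : Fin d) : unit i ∈ baseVec R := by
  classical
  simp [baseVec]

theorem unit_sub_mem (i j : Fin d) : unit i - unit j ∈ baseVec R := by
  classical
  exact mem_union_right _ (mem_image.2 ⟨(i, j), mem_univ _, rfl⟩)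

theorem rvec_mem {y z : Cpx d} (hy : y ∈ complexes R) (hz : z ∈ complexes R) :
    rvec (y, z) ∈ baseVec R := by
  classical
  exact mem_union_left _ (mem_union_left _ (mem_image.2 ⟨(y, z), by simp [hy, hz], rfl⟩))

theorem fst_mem {r : Cpx d × Cpx d} (h : r ∈ R) : r.1 ∈ complexes R := by
  classical
  exact mem_union_left _ (mem_image_of_mem _ h)

theorem snd_mem {r : Cpx d × Cpx d} (h : r ∈ R) : r.2 ∈ complexes R := by
  classical
  exact mem_union_right _ (mem_image_of_mem _ h)

theorem vecs_perm (τ : Equiv.Perm (Fin d)) :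
    ∀ {t : ℕ} {w : Fin d → ℝ}, w ∈ vecs R t → w ∘ τ ∈ vecs R t := by
  classical
  intro t
  induction t with
  | zero =>
    intro w hw
    rw [vecs] at hw ⊢
    obtain ⟨⟨π, u⟩, hu, rfl⟩ := mem_image.1 hw
    refine mem_image.2 ⟨(π * τ, u), by simpa using hu, ?_⟩
    ext i; simp
  | succ t ih =>
    intro w hw
    rw [vecs] at hw
    rcases mem_union.1 hw with h | h
    · exact vecs_mono (Nat.le_succ t) (ih h)
    · obtain ⟨⟨⟨u, u'⟩, k⟩, hq, rfl⟩ := mem_image.1 h
      simp only [mem_product, mem_univ, and_true] at hq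
      have := elim_mem (ih hq.1) (ih hq.2) (τ.symm k)
      convert this using 1
      ext i; simp

/-- Bounds on the nonzero coefficients and on the sizes of the vectors used. -/
theorem exists_coeff_bounds (R : Finset (Cpx d × Cpx d)) :
    ∃ c C : ℝ, 0 < c ∧ c ≤ 1 ∧ 1 ≤ C ∧
      (∀ w ∈ vecs R d, ∀ i, w i ≠ 0 → c ≤ |w i|) ∧
      (∀ w ∈ baseVec R, ∑ i, |w i| ≤ C) := by
  classical
  let A : Finset ℝ := insert 1 (((vecs R d ×ˢ univ).filter
    (fun q : (Fin d → ℝ) × Fin d => q.1 q.2 ≠ 0)).image (fun q => |q.1 q.2|))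
  let B : Finset ℝ := insert 1 ((baseVec R).image (fun w => ∑ i, |w i|))
  have hA : A.Nonempty := insert_nonempty _ _
  have hB : B.Nonempty := insert_nonempty _ _
  refine ⟨A.min' hA, B.max' hB, ?_, A.min'_le _ (mem_insert_self _ _),
    B.le_max' _ (mem_insert_self _ _), ?_, ?_⟩
  · rw [Finset.lt_min'_iff]
    intro a ha
    rcases mem_insert.1 ha with rfl | ha
    · norm_num
    · obtain ⟨q, hq, rfl⟩ := mem_image.1 ha
      exact abs_pos.2 (mem_filter.1 hq).2
  · intro w hw i hi
    exact A.min'_le _ (mem_insert_of_mem (mem_image.2 ⟨(w, i), by simp [hw, hi], rfl⟩))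
  · intro w hw
    exact B.le_max' _ (mem_insert_of_mem (mem_image.2 ⟨w, hw, rfl⟩))

theorem dot_unit (i : Fin d) (g : Fin d → ℝ) : dot (unit i) g = g i := by
  simp [dot, unit]

theorem dot_sub_left (w w' g : Fin d → ℝ) : dot (w - w') g = dot w g - dot w' g := by
  simp [dot, sub_mul, Finset.sum_sub_distrib]

theorem dot_smul_left (a : ℝ) (w g : Fin d → ℝ) : dot (a • w) g = a * dot w g := by
  simp [dot, Finset.mul_sum, mul_assoc]

theorem dot_sub_right (w g g' : Fin d → ℝ) : dot w (g - g') = dot w g - dot w g' := by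
  simp [dot, mul_sub, Finset.sum_sub_distrib]

theorem dot_congr {w g g' : Fin d → ℝ} (h : ∀ i, w i ≠ 0 → g i = g' i) :
    dot w g = dot w g' := by
  refine Finset.sum_congr rfl fun i _ => ?_
  by_cases hi : w i = 0
  · simp [hi]
  · rw [h i hi]

theorem abs_dot_le {w g : Fin d → ℝ} {E : ℝ} (h : ∀ i, |g i| ≤ E) :
    |dot w g| ≤ (∑ i, |w i|) * E := by
  rw [Finset.sum_mul]
  refine (Finset.abs_sum_le_sum_abs _ _).trans (Finset.sum_le_sum fun i _ => ?_)
  rw [abs_mul]
  exact mul_le_mul_of_nonneg_left (h i) (abs_nonneg _)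

end Vale.Agent.P072
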