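import Vale.Agent.P072.Maximizer

/-! The mass-action field does not increase the Lyapunov function. -/

namespace Vale.Agent.P072

open Finset

variable {d : ℕ}

theorem mono_eq_exp {x : Fin d → ℝ} (hx : ∀ i, 0 < x i) (y : Cpx d) :
    mono x y = Real.exp (dot (fun i => (y i : ℝ)) (fun i => Real.log (x i))) := by
  simp only [mono, dot, Real.exp_sum]
  exact Finset.prod_congr rfl fun i _ => by rw [Real.exp_nat_mul, Real.exp_log (hx i)]

theorem dot_rvec (r : Cpx d × Cpx d) (g : Fin d → ℝ) :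
    dot (rvec r) g = dot (fun i => (r.2 i : ℝ)) g - dot (fun i => (r.1 i : ℝ)) g :=
  dot_sub_left (fun i => (r.2 i : ℝ)) (fun i => (r.1 i : ℝ)) g

/-- A path descending from `a` has a descending edge starting at least as high as `a`. -/
theorem exists_descending_edge {R : Finset (Cpx d × Cpx d)} (L : Cpx d → ℝ) {a b : Cpx d}
    (h : Relation.ReflTransGen (fun a b => (a, b) ∈ R) a b) (hlt : L b < L a) :
    ∃ e ∈ R, L a ≤ L e.1 ∧ L e.2 < L e.1 := by
  induction h using Relation.ReflTransGen.head_induction_on with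
  | refl => exact absurd hlt (lt_irrefl _)
  | @head a a' haa' _ ih =>
    rcases lt_or_ge (L a') (L a) with h | h
    · exact ⟨(a, a'), haa', le_rfl, h⟩
    · obtain ⟨e, he, h1, h2⟩ := ih (lt_of_lt_of_le hlt h)
      exact ⟨e, he, h.trans h1, h2⟩

theorem sum_field (R : Finset (Cpx d × Cpx d)) (k : Cpx d → Cpx d → ℝ) (g x : Fin d → ℝ) :
    ∑ i, g i * field R k x i = ∑ r ∈ R, k r.1 r.2 * mono x r.1 * dot (rvec r) g := by
  simp only [field, Finset.sum_apply, Pi.smul_apply, smul_eq_mul, Finset.mul_sum, dot]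
  rw [Finset.sum_comm]
  exact Finset.sum_congr rfl fun r _ => Finset.sum_congr rfl fun i _ => by ring

theorem mul_exp_le {G : ℝ} (hG : 0 ≤ G) : G * Real.exp (-(3 * G / 4)) ≤ 2 := by
  have h1 := Real.add_one_le_exp (3 * G / 4)
  rw [Real.exp_neg, ← div_eq_mul_inv, div_le_iff₀ (Real.exp_pos _)]
  linarith

variable {Θ : Par d} {c C : ℝ}

theorem decrease (hG : Θ.Good c C) (hwr : WeaklyReversible Θ.R) (k : Cpx d → Cpx d → ℝ)
    {kmin kmax : ℝ} (hmin0 : 0 < kmin) (hk1 : ∀ r ∈ Θ.R, kmin ≤ k r.1 r.2)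
    (hk2 : ∀ r ∈ Θ.R, k r.1 r.2 ≤ kmax) (hD : 4 * Θ.R.card * kmax ≤ kmin * c * Θ.D)
    {σ : Equiv.Perm (Fin d)} {φ : Fin d → Bool} {g x : Fin d → ℝ}
    (hmax : Θ.IsMax (σ, φ) g x) (hx : ∀ i, 0 < x i) :
    ∑ i, g i * field Θ.R k x i ≤ 0 ∧
      ((∀ r ∈ Θ.R, dot (rvec r) g = 0) ∨
        ∃ e ∈ Θ.R, ∑ i, g i * field Θ.R k x i ≤ -(kmin * c * Θ.D / 2) * mono x e.1) := by
  rw [sum_field]
  set X : Fin d → ℝ := fun i => Real.log (x i) with hX
  set t : Cpx d × Cpx d → ℝ := fun r => k r.1 r.2 * mono x r.1 * dot (rvec r) g with ht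
  set L : Cpx d → ℝ := fun y => dot (fun i => (y i : ℝ)) g with hL
  set Neg := ∑ r ∈ Θ.R, max (-t r) 0 with hNeg
  have hNeg0 : 0 ≤ Neg := Finset.sum_nonneg fun r _ => le_max_right _ _
  have hcD : 0 < c * Θ.D := mul_pos hG.c_pos (by linarith [hG.D_big])
  have hmono : ∀ y, 0 < mono x y := fun y => by rw [mono_eq_exp hx]; exact Real.exp_pos _
  have negedge : ∀ e ∈ Θ.R, L e.2 < L e.1 → kmin * (c * Θ.D) * mono x e.1 ≤ Neg := by
    intro e he hlt
    have hd : dot (rvec e) g < 0 := by rw [dot_rvec]; simp only [hL] at hlt; linarith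
    have h1 := (track hG hmax hx (rvec_mem (fst_mem he) (snd_mem he)) hd.ne).2
    rw [abs_of_neg hd] at h1
    refine le_trans ?_ (Finset.single_le_sum (f := fun r => max (-t r) 0)
      (fun r _ => le_max_right _ _) he)
    refine le_trans ?_ (le_max_left _ _)
    simp only [ht]
    have hk0 : 0 ≤ k e.1 e.2 := hmin0.le.trans (hk1 e he)
    calc kmin * (c * Θ.D) * mono x e.1 ≤ k e.1 e.2 * -dot (rvec e) g * mono x e.1 :=
          mul_le_mul_of_nonneg_right (mul_le_mul (hk1 e he) h1 hcD.le hk0) (hmono _).le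
      _ = _ := by ring
  have posedge : ∀ r ∈ Θ.R, 0 < dot (rvec r) g →
      ∃ e ∈ Θ.R, L e.2 < L e.1 ∧ t r ≤ 2 * kmax * mono x e.1 := by
    intro r hr hpos
    have hGr : dot (rvec r) g = L r.2 - L r.1 := dot_rvec r g
    obtain ⟨e, he, h1, h2⟩ := exists_descending_edge L (hwr r hr) (by linarith)
    refine ⟨e, he, h2, ?_⟩
    have hw : dot (rvec (r.1, e.1)) g = L e.1 - L r.1 := dot_rvec (r.1, e.1) g
    have hwpos : 0 < dot (rvec (r.1, e.1)) g := by linarith
    have h3 := (track hG hmax hx (rvec_mem (fst_mem hr) (fst_mem he)) hwpos.ne').1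
    rw [abs_of_pos hwpos] at h3
    have h4 := neg_le_of_abs_le (le_of_mul_le_mul_left
      (h3.trans_eq (by ring : dot (rvec (r.1, e.1)) g = 4 * (dot (rvec (r.1, e.1)) g / 4)))
      (by norm_num))
    have hX' : dot (rvec (r.1, e.1)) X
        = dot (fun i => (e.1 i : ℝ)) X - dot (fun i => (r.1 i : ℝ)) X := dot_rvec (r.1, e.1) X
    have hle : mono x r.1 ≤ Real.exp (-(3 * dot (rvec r) g / 4)) * mono x e.1 := by
      rw [mono_eq_exp hx, mono_eq_exp hx, ← Real.exp_add]
      refine Real.exp_le_exp.2 ?_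
      simp only [hX] at h4 hX'
      linarith
    have hk0 : 0 ≤ k r.1 r.2 := hmin0.le.trans (hk1 r hr)
    simp only [ht]
    calc k r.1 r.2 * mono x r.1 * dot (rvec r) g
        ≤ k r.1 r.2 * (Real.exp (-(3 * dot (rvec r) g / 4)) * mono x e.1) * dot (rvec r) g :=
          mul_le_mul_of_nonneg_right (mul_le_mul_of_nonneg_left hle hk0) hpos.le
      _ = k r.1 r.2 * (dot (rvec r) g * Real.exp (-(3 * dot (rvec r) g / 4))) * mono x e.1 := by
          ring
      _ ≤ kmax * 2 * mono x e.1 := by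
          refine mul_le_mul_of_nonneg_right ?_ (hmono _).le
          exact mul_le_mul (hk2 r hr) (mul_exp_le hpos.le)
            (mul_nonneg hpos.le (Real.exp_pos _).le) (hk0.trans (hk2 r hr))
      _ = _ := by ring
  have hpart : ∀ r ∈ Θ.R, (2 * Θ.R.card : ℝ) * max (t r) 0 ≤ Neg := by
    intro r hr
    rcases le_or_gt (t r) 0 with h | h
    · rw [max_eq_right h, mul_zero]; exact hNeg0
    · rw [max_eq_left h.le]
      have hpos : 0 < dot (rvec r) g := by
        simp only [ht] at h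
        exact (pos_iff_pos_of_mul_pos h).1 (mul_pos (hmin0.trans_le (hk1 r hr)) (hmono _))
      obtain ⟨e, he, h1, h2⟩ := posedge r hr hpos
      have h3 := negedge e he h1
      have h4 := mul_le_mul_of_nonneg_left h2 (show (0 : ℝ) ≤ 2 * Θ.R.card by positivity)
      have h5 := mul_le_mul_of_nonneg_right hD (hmono e.1).le
      nlinarith
  have hsum : ∑ r ∈ Θ.R, t r ≤ -(Neg / 2) := by
    have h1 : ∀ r, t r = max (t r) 0 - max (-t r) 0 := fun r => by
      rcases le_total (t r) 0 with h | h <;> simp [h]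
    rw [Finset.sum_congr rfl fun r _ => h1 r, Finset.sum_sub_distrib, ← hNeg]
    rcases Θ.R.eq_empty_or_nonempty with he | he
    · rw [he, Finset.sum_empty]; linarith
    · have hc : (0 : ℝ) < Θ.R.card := by exact_mod_cast he.card_pos
      have h2 := Finset.sum_le_sum hpart
      rw [← Finset.mul_sum, Finset.sum_const, nsmul_eq_mul] at h2
      have h3 : ∑ r ∈ Θ.R, max (t r) 0 ≤ Neg / 2 := by
        by_contra hcon
        have := mul_lt_mul_of_pos_left (lt_of_not_ge hcon) (show (0:ℝ) < 2 * Θ.R.card by linarith)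
        linarith
      linarith
  refine ⟨hsum.trans (by linarith), ?_⟩
  by_cases hall : ∀ r ∈ Θ.R, dot (rvec r) g = 0
  · exact Or.inl hall
  · right
    push Not at hall
    obtain ⟨r, hr, hne⟩ := hall
    rcases lt_or_gt_of_ne hne with h | h
    · refine ⟨r, hr, hsum.trans ?_⟩
      have := negedge r hr (by rw [dot_rvec] at h; simp only [hL]; linarith)
      linarith
    · obtain ⟨e, he, h1, -⟩ := posedge r hr h
      refine ⟨e, he, hsum.trans ?_⟩
      have := negedge e he h1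
      linarith

end Vale.Agent.P072
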