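import Mathlib

namespace Vale.Agent.P072

/-- A complex on `d` species. -/
abbrev Cpx (d : ℕ) := Fin d → ℕ

variable {d : ℕ}

/-- The vector `y' - y` of a reaction. -/
def rvec (r : Cpx d × Cpx d) : Fin d → ℝ := fun i => (r.2 i : ℝ) - (r.1 i : ℝ)

/-- The monomial `x^y`. -/
def mono (x : Fin d → ℝ) (y : Cpx d) : ℝ := ∏ i, x i ^ y i

/-- The mass-action vector field. -/
def field (R : Finset (Cpx d × Cpx d)) (k : Cpx d → Cpx d → ℝ) (x : Fin d → ℝ) :
    Fin d → ℝ :=
  ∑ r ∈ R, (k r.1 r.2 * mono x r.1) • rvec r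

/-- For every reaction `y → y'` there is a directed path from `y'` to `y`. -/
def WeaklyReversible (R : Finset (Cpx d × Cpx d)) : Prop :=
  ∀ r ∈ R, Relation.ReflTransGen (fun a b => (a, b) ∈ R) r.2 r.1

/-- The stoichiometric subspace. -/
def stoich (R : Finset (Cpx d × Cpx d)) : Submodule ℝ (Fin d → ℝ) :=
  Submodule.span ℝ (rvec '' (R : Set (Cpx d × Cpx d)))

/-- The positive stoichiometric class of `c`. -/
def posClass (R : Finset (Cpx d × Cpx d)) (c : Fin d → ℝ) : Set (Fin d → ℝ) :=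
  {x | (∀ i, 0 < x i) ∧ x - c ∈ stoich R}

/-- `x` solves the mass-action equation on the time set `s`. -/
def IsSolutionOn (R : Finset (Cpx d × Cpx d)) (k : Cpx d → Cpx d → ℝ)
    (x : ℝ → Fin d → ℝ) (s : Set ℝ) : Prop :=
  ∀ t ∈ s, HasDerivWithinAt x (field R k (x t)) s t

/-- Permanence on the class of `c`: each starting point has a solution for all time, staying in
the class, which every solution from the same point on any interval `[0,T)` agrees with; and one
compact subset of the class eventually holds every solution. -/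
def PermanentOn (R : Finset (Cpx d × Cpx d)) (k : Cpx d → Cpx d → ℝ) (c : Fin d → ℝ) : Prop :=
  (∀ x₀ ∈ posClass R c, ∃ x : ℝ → Fin d → ℝ, x 0 = x₀ ∧ IsSolutionOn R k x (Set.Ici 0) ∧
      (∀ t, 0 ≤ t → x t ∈ posClass R c) ∧
      ∀ (T : ℝ) (y : ℝ → Fin d → ℝ), y 0 = x₀ → IsSolutionOn R k y (Set.Ico 0 T) →
        Set.EqOn y x (Set.Ico 0 T)) ∧
  ∃ K : Set (Fin d → ℝ), IsCompact K ∧ K ⊆ posClass R c ∧
    ∀ x : ℝ → Fin d → ℝ, x 0 ∈ posClass R c → IsSolutionOn R k x (Set.Ici 0) →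
      ∃ T, ∀ t, T ≤ t → x t ∈ K

end Vale.Agent.P072
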