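import Vale.Agent.P072.Defs

/-!
Solutions of mass-action equations on an interval: positivity, the stoichiometric class, decrease
of a function with a subgradient selection, comparison of solutions, solutions of the cut-off field.
-/

namespace Vale.Agent.P072

open Set Filter
open scoped Topology NNReal

variable {d : ℕ} (R : Finset (Cpx d × Cpx d)) (k : Cpx d → Cpx d → ℝ)

lemma field_apply (x : Fin d → ℝ) (i : Fin d) :
    field R k x i = ∑ r ∈ R, k r.1 r.2 * mono x r.1 * rvec r i := by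
  simp [field, Finset.sum_apply]

lemma contDiff_field : ContDiff ℝ 1 (field R k) := by
  unfold field mono
  fun_prop

lemma field_mem_stoich (x : Fin d → ℝ) : field R k x ∈ stoich R :=
  Submodule.sum_mem _ fun _ hr =>
    Submodule.smul_mem _ _ (Submodule.subset_span (mem_image_of_mem _ hr))

lemma exists_lipschitzOnWith (a b : Fin d → ℝ) :
    ∃ K, LipschitzOnWith K (field R k) (Icc a b) :=
  (contDiff_field R k).contDiffOn.exists_lipschitzOnWith one_ne_zero (convex_Icc a b) isCompact_Icc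

/-- A negative term of the field in coordinate `i` carries a factor `x i`. -/
lemma exists_field_ge (hk : ∀ r ∈ R, 0 < k r.1 r.2) (B : ℝ) :
    ∃ C, 0 ≤ C ∧ ∀ x : Fin d → ℝ, (∀ i, 0 ≤ x i) → (∀ i, x i ≤ B) →
      ∀ i, -C * x i ≤ field R k x i := by
  set B' := max B 1
  refine ⟨∑ r ∈ R, k r.1 r.2 * (∑ j, (r.1 j : ℝ)) * B' ^ (∑ j, r.1 j),
    Finset.sum_nonneg fun r hr => ?_, fun x hx0 hxB i => ?_⟩
  · have := (hk r hr).le
    positivity
  · rw [field_apply, neg_mul, Finset.sum_mul, ← Finset.sum_neg_distrib]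
    refine Finset.sum_le_sum fun r hr => ?_
    have hk0 := (hk r hr).le
    have hm0 : 0 ≤ mono x r.1 := Finset.prod_nonneg fun j _ => pow_nonneg (hx0 j) _
    have hB1 : 1 ≤ B' := le_max_right _ _
    have h1 : mono x r.1 * (r.1 i : ℝ) ≤ (∑ j, (r.1 j : ℝ)) * B' ^ (∑ j, r.1 j) * x i := by
      rcases Nat.eq_zero_or_pos (r.1 i) with h | h
      · rw [h, Nat.cast_zero, mul_zero]
        have := hx0 i
        positivity
      · have hi : (r.1 i : ℝ) ≤ ∑ j, (r.1 j : ℝ) :=
          Finset.single_le_sum (f := fun j => (r.1 j : ℝ)) (fun j _ => Nat.cast_nonneg _)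
            (Finset.mem_univ i)
        have hm : mono x r.1 ≤ x i * B' ^ (∑ j, r.1 j) := by
          rw [mono, ← Finset.mul_prod_erase _ _ (Finset.mem_univ i),
            ← Finset.add_sum_erase _ r.1 (Finset.mem_univ i), pow_add, ← Finset.prod_pow_eq_pow_sum,
            ← mul_assoc]
          obtain ⟨m, hm⟩ := Nat.exists_eq_succ_of_ne_zero h.ne'
          rw [hm, pow_succ' (x i)]
          refine mul_le_mul (mul_le_mul_of_nonneg_left ?_ (hx0 i))
            (Finset.prod_le_prod (fun j _ => pow_nonneg (hx0 j) _) fun j _ =>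
              pow_le_pow_left₀ (hx0 j) ((hxB j).trans (le_max_left _ _)) _)
            (Finset.prod_nonneg fun j _ => pow_nonneg (hx0 j) _) (by have := hx0 i; positivity)
          exact le_trans (pow_le_pow_left₀ (hx0 i) ((hxB i).trans (le_max_left _ _)) _)
            (pow_le_pow_right₀ hB1 (Nat.le_succ m))
        calc mono x r.1 * (r.1 i : ℝ) ≤ (x i * B' ^ (∑ j, r.1 j)) * ∑ j, (r.1 j : ℝ) :=
              mul_le_mul hm hi (Nat.cast_nonneg _) (by have := hx0 i; positivity)
          _ = _ := by ring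
    have h2 : 0 ≤ mono x r.1 * (r.2 i : ℝ) := mul_nonneg hm0 (Nat.cast_nonneg _)
    have h3 := mul_le_mul_of_nonneg_left h1 hk0
    have h4 := mul_nonneg hk0 h2
    rw [rvec]
    linarith

section interval

variable {R k} {x : ℝ → Fin d → ℝ} {s t : ℝ}

lemma IsSolutionOn.continuousOn {S : Set ℝ} (hx : IsSolutionOn R k x S) : ContinuousOn x S :=
  fun u hu => (hx u hu).continuousWithinAt

lemma IsSolutionOn.mono_set {S S' : Set ℝ} (hx : IsSolutionOn R k x S) (h : S' ⊆ S) :
    IsSolutionOn R k x S' :=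
  fun u hu => (hx u (h hu)).mono h

lemma IsSolutionOn.shift (hx : IsSolutionOn R k x (Ici 0)) (hs : 0 ≤ s) :
    IsSolutionOn R k (fun u => x (s + u)) (Ici 0) := by
  intro u hu
  have h := (hx (s + u) (add_nonneg hs hu)).scomp u ((hasDerivWithinAt_id u (Ici 0)).const_add s)
    (fun v hv => add_nonneg hs hv)
  rw [one_smul] at h
  exact h

/-- On a compact interval a solution lies in a box. -/
lemma IsSolutionOn.exists_bound (hx : IsSolutionOn R k x (Icc s t)) :
    ∃ B, ∀ u ∈ Icc s t, ‖x u‖ ≤ B :=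
  isCompact_Icc.exists_bound_of_continuousOn hx.continuousOn

lemma exp_lower_bound {C : ℝ} (hx : IsSolutionOn R k x (Icc s t)) {i : Fin d}
    (hC : ∀ u ∈ Icc s t, -C * x u i ≤ field R k (x u) i) (hst : s ≤ t) :
    x s i * Real.exp (-C * (t - s)) ≤ x t i := by
  have hd : ∀ u ∈ Icc s t, HasDerivWithinAt (fun u => x u i * Real.exp (C * (u - s)))
      (field R k (x u) i * Real.exp (C * (u - s)) + x u i * (Real.exp (C * (u - s)) * (C * 1)))
      (Icc s t) u := fun u hu =>
    ((hasDerivWithinAt_pi.1 (hx u hu)) i).mul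
      (((hasDerivWithinAt_id u _).sub_const s).const_mul C).exp
  have hmono : MonotoneOn (fun u => x u i * Real.exp (C * (u - s))) (Icc s t) := by
    refine monotoneOn_of_hasDerivWithinAt_nonneg (convex_Icc s t)
      (fun u hu => (hd u hu).continuousWithinAt)
      (fun u hu => (hd u (interior_subset hu)).mono interior_subset) fun u hu => ?_
    have h := hC u (interior_subset hu)
    have e := Real.exp_pos (C * (u - s))
    have h' := mul_le_mul_of_nonneg_right h e.le
    linarith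
  have h := hmono (left_mem_Icc.2 hst) (right_mem_Icc.2 hst) hst
  simp only [sub_self, mul_zero, Real.exp_zero, mul_one] at h
  rw [neg_mul, Real.exp_neg, ← div_eq_mul_inv, div_le_iff₀ (Real.exp_pos _)]
  exact h

/-- Solutions which start positive stay positive. -/
lemma IsSolutionOn.pos (hk : ∀ r ∈ R, 0 < k r.1 r.2) (hx : IsSolutionOn R k x (Icc s t))
    (h0 : ∀ i, 0 < x s i) : ∀ u ∈ Icc s t, ∀ i, 0 < x u i := by
  by_contra hcon
  push Not at hcon
  obtain ⟨u₀, hu₀, i₀, hi₀⟩ := hcon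
  obtain ⟨B, hB⟩ := hx.exists_bound
  obtain ⟨C, -, hC⟩ := exists_field_ge R k hk B
  set Z := {u ∈ Icc s t | ∃ i, x u i ≤ 0}
  have hcl : IsClosed Z := by
    have : Z = ⋃ i, (Icc s t ∩ (fun u => x u i) ⁻¹' Iic 0) := by
      ext u; simp [Z]
    rw [this]
    exact isClosed_iUnion_of_finite fun i =>
      ((continuous_apply i).comp_continuousOn hx.continuousOn).preimage_isClosed_of_isClosed
        isClosed_Icc isClosed_Iic
  have hne : Z.Nonempty := ⟨u₀, hu₀, i₀, hi₀⟩
  have hbb : BddBelow Z := ⟨s, fun u hu => hu.1.1⟩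
  obtain ⟨hτ, i, hi⟩ := hcl.csInf_mem hne hbb
  set τ := sInf Z
  have hbefore : ∀ u ∈ Ico s τ, ∀ j, 0 < x u j := by
    intro u hu j
    by_contra hj
    push Not at hj
    exact absurd (csInf_le hbb ⟨⟨hu.1, hu.2.le.trans hτ.2⟩, j, hj⟩) (not_le.2 hu.2)
  have hsτ : s < τ := by
    rcases hτ.1.lt_or_eq with h | h
    · exact h
    · rw [← h] at hi; exact absurd hi (not_le.2 (h0 i))
  have hsub : Icc s τ ⊆ Icc s t := Icc_subset_Icc_right hτ.2
  have hnn : ∀ j, ∀ u ∈ Icc s τ, 0 ≤ x u j := by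
    intro j u hu
    have hc : ContinuousOn (fun u => x u j) (Icc s τ) :=
      (continuous_apply j).comp_continuousOn (hx.continuousOn.mono hsub)
    rw [← closure_Ico hsτ.ne] at hu hc
    exact le_on_closure (fun v hv => (hbefore v hv j).le) continuousOn_const hc hu
  have hlow := exp_lower_bound (hx.mono_set hsub)
    (fun u hu => hC (x u) (fun j => hnn j u hu)
      (fun j => ((le_abs_self _).trans (norm_le_pi_norm (x u) j)).trans (hB u (hsub hu))) i)
    hsτ.le
  linarith [mul_pos (h0 i) (Real.exp_pos (-C * (τ - s)))]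

lemma IsSolutionOn.sub_mem_stoich (hx : IsSolutionOn R k x (Icc s t)) :
    ∀ u ∈ Icc s t, x u - x s ∈ stoich R := by
  intro u hu
  by_contra hv
  obtain ⟨φ, hφv, hφS⟩ := Submodule.exists_dual_map_eq_bot_of_notMem hv inferInstance
  have hzero : ∀ w ∈ stoich R, φ w = 0 := fun w hw => by
    have := Submodule.mem_map_of_mem (f := φ) hw
    rwa [hφS, Submodule.mem_bot] at this
  have h : ∀ v ∈ Icc s t, HasDerivWithinAt (fun v => φ (x v)) 0 (Icc s t) v := fun v hv => by
    have h1 := φ.toContinuousLinearMap.hasFDerivAt.comp_hasDerivWithinAt v (hx v hv)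
    rw [LinearMap.coe_toContinuousLinearMap', hzero _ (field_mem_stoich R k _)] at h1
    exact h1
  have hc := constant_of_has_deriv_right_zero (fun v hv => (h v hv).continuousWithinAt)
    (fun v hv => (h v (Ico_subset_Icc_self hv)).mono_of_mem_nhdsWithin
      (Icc_mem_nhdsGE_of_mem hv)) u hu
  exact hφv (by rw [map_sub, hc, sub_self])

lemma IsSolutionOn.mem_posClass {c : Fin d → ℝ} (hk : ∀ r ∈ R, 0 < k r.1 r.2)
    (hx : IsSolutionOn R k x (Icc s t)) (h0 : x s ∈ posClass R c) :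
    ∀ u ∈ Icc s t, x u ∈ posClass R c := fun u hu =>
  ⟨hx.pos hk h0.1 u hu, by
    simpa using Submodule.add_mem _ (hx.sub_mem_stoich u hu) h0.2⟩

/-- Along a solution, a function with a subgradient selection drops at the rate given by it. -/
lemma descent {P : Set (Fin d → ℝ)} (hP : ∀ z ∈ P, ∀ i, 0 < z i)
    {V : (Fin d → ℝ) → ℝ} {g : (Fin d → ℝ) → Fin d → ℝ}
    (hsub : ∀ y z, (∀ i, 0 < y i) → (∀ i, 0 < z i) → V y + ∑ i, g y i * (z i - y i) ≤ V z)
    (hg : ∀ a b, 0 < a → ∃ L, ∀ y : Fin d → ℝ, (∀ i, y i ∈ Icc a b) → ∀ i, |g y i| ≤ L)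
    (hx : IsSolutionOn R k x (Icc s t)) (hst : s ≤ t) (hmem : ∀ u ∈ Icc s t, x u ∈ P) {η : ℝ}
    (hη : ∀ u ∈ Icc s t, ∑ i, g (x u) i * field R k (x u) i ≤ -η) :
    V (x t) ≤ V (x s) - η * (t - s) := by
  obtain ⟨B, hB⟩ := hx.exists_bound
  obtain ⟨a, ha, hxa⟩ : ∃ a, 0 < a ∧ ∀ u ∈ Icc s t, ∀ i, a ≤ x u i := by
    have : ∀ i, ∃ a, 0 < a ∧ ∀ u ∈ Icc s t, a ≤ x u i := fun i => by
      obtain ⟨u₁, hu₁, hmin⟩ := isCompact_Icc.exists_isMinOn (nonempty_Icc.2 hst)
        ((continuous_apply i).comp_continuousOn hx.continuousOn)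
      exact ⟨x u₁ i, hP _ (hmem u₁ hu₁) i, fun u hu => hmin hu⟩
    choose f hf0 hf using this
    obtain ⟨a, ha, hle⟩ : ∃ a, 0 < a ∧ ∀ i, a ≤ f i := by
      rcases isEmpty_or_nonempty (Fin d) with h | h
      · exact ⟨1, one_pos, fun i => isEmptyElim i⟩
      · obtain ⟨i₁, hi₁⟩ := Finite.exists_min f
        exact ⟨f i₁, hf0 i₁, hi₁⟩
    exact ⟨a, ha, fun u hu i => (hle i).trans (hf i u hu)⟩
  obtain ⟨L, hL⟩ := hg a B ha
  have hbox : ∀ u ∈ Icc s t, x u ∈ Icc (fun _ => -B) (fun _ : Fin d => B) := fun u hu =>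
    ⟨fun i => (abs_le.1 ((norm_le_pi_norm (x u) i).trans (hB u hu))).1,
      fun i => (abs_le.1 ((norm_le_pi_norm (x u) i).trans (hB u hu))).2⟩
  obtain ⟨K, hK⟩ := exists_lipschitzOnWith R k (fun _ => -B) (fun _ : Fin d => B)
  obtain ⟨M, hM⟩ := isCompact_Icc.exists_bound_of_continuousOn
    ((contDiff_field R k).continuous.comp_continuousOn hx.continuousOn)
  set E := (K : ℝ) * M * d * |L|
  have hstep : ∀ u v, u ∈ Icc s t → v ∈ Icc s t → u ≤ v →
      V (x v) ≤ V (x u) - η * (v - u) + E * (v - u) ^ 2 := by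
    intro u v hu hv huv
    have hsub' : Icc u v ⊆ Icc s t := Icc_subset_Icc hu.1 hv.2
    have hlip : ∀ w ∈ Icc u v, ‖field R k (x w) - field R k (x v)‖ ≤ K * M * (v - u) := by
      intro w hw
      have h1 : ‖x v - x w‖ ≤ M * ‖v - w‖ :=
        (convex_Icc u v).norm_image_sub_le_of_norm_hasDerivWithin_le
          (fun z hz => (hx z (hsub' hz)).mono hsub') (fun z hz => hM z (hsub' hz)) hw
          (right_mem_Icc.2 huv)
      have hM0 : 0 ≤ M := (norm_nonneg _).trans (hM w (hsub' hw))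
      have h2 := hK.dist_le_mul _ (hbox w (hsub' hw)) _ (hbox v hv)
      rw [dist_eq_norm, dist_eq_norm, norm_sub_rev (x w)] at h2
      refine h2.trans ?_
      rw [mul_assoc]
      refine mul_le_mul_of_nonneg_left (h1.trans ?_) K.coe_nonneg
      rw [Real.norm_eq_abs, abs_of_nonneg (by linarith [hw.2] : (0:ℝ) ≤ v - w)]
      exact mul_le_mul_of_nonneg_left (by linarith [hw.1]) hM0
    have herr : ‖x v - x u - (v - u) • field R k (x v)‖ ≤ K * M * (v - u) * ‖v - u‖ := by
      have h1 := (convex_Icc u v).norm_image_sub_le_of_norm_hasDerivWithin_le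
        (f := fun w => x w - w • field R k (x v))
        (f' := fun w => field R k (x w) - (1:ℝ) • field R k (x v))
        (fun z hz => ((hx z (hsub' hz)).mono hsub').sub
          ((hasDerivWithinAt_id z _).smul_const (field R k (x v))))
        (fun z hz => by rw [one_smul]; exact hlip z hz) (left_mem_Icc.2 huv) (right_mem_Icc.2 huv)
      refine le_trans (le_of_eq ?_) h1
      rw [sub_smul]
      congr 1
      abel
    rw [Real.norm_eq_abs, abs_of_nonneg (sub_nonneg.2 huv), mul_assoc, ← sq] at herr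
    have hv' := hL (x v) fun i => ⟨hxa v hv i, (hbox v hv).2 i⟩
    have hsum : -(∑ i, g (x v) i * (x u i - x v i)) ≤
        (v - u) * ∑ i, g (x v) i * field R k (x v) i + E * (v - u) ^ 2 := by
      have hterm : ∀ i, -(g (x v) i * (x u i - x v i)) ≤
          (v - u) * (g (x v) i * field R k (x v) i) + |L| * (K * M * (v - u) ^ 2) := by
        intro i
        have h1 := (norm_le_pi_norm _ i).trans herr
        simp only [Pi.sub_apply, Pi.smul_apply, smul_eq_mul, Real.norm_eq_abs] at h1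
        have h2 : |g (x v) i * (x v i - x u i - (v - u) * field R k (x v) i)| ≤
            |L| * (K * M * (v - u) ^ 2) := by
          rw [abs_mul]
          exact mul_le_mul ((hv' i).trans (le_abs_self L)) h1 (abs_nonneg _) (abs_nonneg _)
        linarith [(abs_le.1 h2).2]
      have h3 : ∑ i, -(g (x v) i * (x u i - x v i)) ≤ ∑ i : Fin d,
          ((v - u) * (g (x v) i * field R k (x v) i) + |L| * (K * M * (v - u) ^ 2)) :=
        Finset.sum_le_sum fun i _ => hterm i
      rw [Finset.sum_neg_distrib, Finset.sum_add_distrib, ← Finset.mul_sum] at h3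
      simp only [Finset.sum_const, Finset.card_univ, Fintype.card_fin, nsmul_eq_mul] at h3
      refine h3.trans (le_of_eq ?_)
      simp only [E]
      ring
    have h1 := hsub _ _ (hP _ (hmem v hv)) (hP _ (hmem u hu))
    have h2 := mul_le_mul_of_nonneg_left (hη v hv) (sub_nonneg.2 huv)
    linarith
  have hN : ∀ N : ℕ, 0 < N → V (x t) ≤ V (x s) - η * (t - s) + E * (t - s) ^ 2 / N := by
    intro N hN
    have hN' : (0:ℝ) < N := Nat.cast_pos.2 hN
    set h := (t - s) / N with hh
    have hh0 : 0 ≤ h := div_nonneg (sub_nonneg.2 hst) hN'.le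
    have hgrid : ∀ m : ℕ, m ≤ N → s + m * h ∈ Icc s t := by
      intro m hm
      have h1 : (m:ℝ) * h ≤ N * h := mul_le_mul_of_nonneg_right (Nat.cast_le.2 hm) hh0
      have h2 : (N:ℝ) * h = t - s := by rw [hh]; field_simp
      exact ⟨by nlinarith, by linarith⟩
    have hind : ∀ m : ℕ, m ≤ N → V (x (s + m * h)) ≤ V (x s) + m * (-(η * h) + E * h ^ 2) := by
      intro m
      induction m with
      | zero => simp
      | succ m ih =>
        intro hm
        have h1 := ih (Nat.le_of_succ_le hm)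
        have h2 := hstep _ _ (hgrid m (Nat.le_of_succ_le hm)) (hgrid (m+1) hm)
          (by push_cast; nlinarith)
        push_cast at h2 ⊢
        rw [show s + ((m:ℝ) + 1) * h - (s + m * h) = h by ring] at h2
        linarith
    have h1 := hind N le_rfl
    have e1 : s + (N:ℝ) * h = t := by rw [hh]; field_simp; ring
    have e2 : (N:ℝ) * (-(η * h) + E * h ^ 2) = -(η * (t - s)) + E * (t - s) ^ 2 / N := by
      rw [hh]; field_simp
    rw [e1, e2] at h1
    linarith
  have hlim : Tendsto (fun N : ℕ => V (x s) - η * (t - s) + E * (t - s) ^ 2 / N) atTop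
      (𝓝 (V (x s) - η * (t - s))) := by
    simpa using (tendsto_const_div_atTop_nhds_zero_nat (E * (t - s) ^ 2)).const_add
      (V (x s) - η * (t - s))
  exact ge_of_tendsto hlim (eventually_gt_atTop 0 |>.mono hN)

end interval

section compare

variable {R k}

/-- Two solutions inside a box stay exponentially close. -/
lemma exists_dist_bound (B : ℝ) : ∃ K : ℝ≥0, ∀ (x y : ℝ → Fin d → ℝ) (t : ℝ),
    IsSolutionOn R k x (Icc 0 t) → IsSolutionOn R k y (Icc 0 t) →
    (∀ u ∈ Icc 0 t, ‖x u‖ ≤ B) → (∀ u ∈ Icc 0 t, ‖y u‖ ≤ B) →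
    ∀ u ∈ Icc 0 t, dist (x u) (y u) ≤ dist (x 0) (y 0) * Real.exp (K * u) := by
  obtain ⟨K, hK⟩ := exists_lipschitzOnWith R k (fun _ => -B) (fun _ : Fin d => B)
  refine ⟨K, fun x y t hx hy hxB hyB u hu => ?_⟩
  have hbox : ∀ z : Fin d → ℝ, ‖z‖ ≤ B → z ∈ Icc (fun _ => -B) (fun _ : Fin d => B) :=
    fun z hz => ⟨fun i => (abs_le.1 ((norm_le_pi_norm z i).trans hz)).1,
      fun i => (abs_le.1 ((norm_le_pi_norm z i).trans hz)).2⟩
  have h := dist_le_of_trajectories_ODE_of_mem (v := fun _ => field R k)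
    (s := fun _ => Icc (fun _ => -B) (fun _ : Fin d => B)) (K := K)
    (fun _ _ => hK) hx.continuousOn
    (fun v hv => (hx v (Ico_subset_Icc_self hv)).mono_of_mem_nhdsWithin (Icc_mem_nhdsGE_of_mem hv))
    (fun v hv => hbox _ (hxB v (Ico_subset_Icc_self hv))) hy.continuousOn
    (fun v hv => (hy v (Ico_subset_Icc_self hv)).mono_of_mem_nhdsWithin (Icc_mem_nhdsGE_of_mem hv))
    (fun v hv => hbox _ (hyB v (Ico_subset_Icc_self hv))) le_rfl u hu
  simpa using h

lemma eqOn_Icc {x y : ℝ → Fin d → ℝ} {t : ℝ} (hx : IsSolutionOn R k x (Icc 0 t))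
    (hy : IsSolutionOn R k y (Icc 0 t)) (h0 : x 0 = y 0) : EqOn x y (Icc 0 t) := by
  intro u hu
  obtain ⟨A, hA⟩ := hx.exists_bound
  obtain ⟨B, hB⟩ := hy.exists_bound
  obtain ⟨K, hK⟩ := exists_dist_bound (R := R) (k := k) (max A B)
  have h := hK x y t hx hy (fun v hv => (hA v hv).trans (le_max_left _ _))
    (fun v hv => (hB v hv).trans (le_max_right _ _)) u hu
  rw [h0, dist_self, zero_mul] at h
  exact dist_le_zero.1 h

end compare

/-- Truncation of every coordinate to `[-B, B]`. -/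
noncomputable def clamp (B : ℝ) (hB : -B ≤ B) (x : Fin d → ℝ) : Fin d → ℝ :=
  fun i => projIcc (-B) B hB (x i)

lemma clamp_of_norm_le {B : ℝ} (hB : -B ≤ B) {x : Fin d → ℝ} (hx : ‖x‖ ≤ B) :
    clamp B hB x = x :=
  funext fun i => congrArg Subtype.val
    (projIcc_of_mem hB (abs_le.1 ((norm_le_pi_norm x i).trans hx)))

/-- The cut-off field has a solution for all time from every start. -/
lemma exists_cutoff_solution {B : ℝ} (hB : -B ≤ B) (x₀ : Fin d → ℝ) :
    ∃ x : ℝ → Fin d → ℝ, x 0 = x₀ ∧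
      ∀ t ∈ Ici (0:ℝ), HasDerivWithinAt x (field R k (clamp B hB (x t))) (Ici 0) t := by
  obtain ⟨K, hK⟩ := exists_lipschitzOnWith R k (fun _ => -B) (fun _ : Fin d => B)
  have hcm : ∀ z : Fin d → ℝ, clamp B hB z ∈ Icc (fun _ => -B) (fun _ : Fin d => B) := fun z =>
    ⟨fun i => (projIcc (-B) B hB (z i)).2.1, fun i => (projIcc (-B) B hB (z i)).2.2⟩
  have hlip : LipschitzWith K (fun z : Fin d → ℝ => field R k (clamp B hB z)) := by
    refine LipschitzWith.of_dist_le_mul fun z w => (hK.dist_le_mul _ (hcm z) _ (hcm w)).trans ?_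
    refine mul_le_mul_of_nonneg_left ((dist_pi_le_iff dist_nonneg).2 fun i => ?_) K.coe_nonneg
    have h := ((LipschitzWith.projIcc hB).dist_le_mul (z i) (w i)).trans
      (le_of_eq (by rw [NNReal.coe_one, one_mul]))
    exact h.trans (dist_le_pi_dist z w i)
  obtain ⟨M, hM⟩ := isCompact_Icc.exists_bound_of_continuousOn
    (contDiff_field R k).continuous.continuousOn (s := Icc (fun _ => -B) (fun _ : Fin d => B))
  set L : ℝ≥0 := M.toNNReal
  have hsol : ∀ n : ℕ, ∃ y : ℝ → Fin d → ℝ, y 0 = x₀ ∧ ∀ t ∈ Icc (0:ℝ) n,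
      HasDerivWithinAt y (field R k (clamp B hB (y t))) (Icc 0 n) t := fun n => by
    have hpl : IsPicardLindelof (fun _ => fun z => field R k (clamp B hB z))
        (⟨0, le_rfl, n.cast_nonneg⟩ : Icc (0:ℝ) n) x₀ (L * n) 0 L K :=
      .of_time_independent (fun z _ => (hM _ (hcm z)).trans (Real.le_coe_toNNReal M))
        hlip.lipschitzOnWith (by simp)
    exact hpl.exists_eq_forall_mem_Icc_hasDerivWithinAt₀
  choose Y hY0 hY using hsol
  have hagree : ∀ n m : ℕ, n ≤ m → EqOn (Y n) (Y m) (Icc 0 n) := by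
    intro n m hnm u hu
    have hsub : Icc (0:ℝ) n ⊆ Icc 0 m := Icc_subset_Icc_right (Nat.cast_le.2 hnm)
    have h := dist_le_of_trajectories_ODE (v := fun _ z => field R k (clamp B hB z)) (δ := 0)
      (fun _ => hlip) (fun v hv => (hY n v hv).continuousWithinAt)
      (fun v hv => (hY n v (Ico_subset_Icc_self hv)).mono_of_mem_nhdsWithin
        (Icc_mem_nhdsGE_of_mem hv))
      (fun v hv => (hY m v (hsub hv)).continuousWithinAt.mono hsub)
      (fun v hv => ((hY m v (hsub (Ico_subset_Icc_self hv))).mono hsub).mono_of_mem_nhdsWithin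
        (Icc_mem_nhdsGE_of_mem hv))
      (by rw [hY0, hY0, dist_self]) u hu
    exact dist_le_zero.1 (by simpa using h)
  refine ⟨fun t => Y (⌈t⌉₊ + 1) t, by simp [hY0], fun t ht => ?_⟩
  set N := ⌈t⌉₊ + 1 with hN
  have hnear : ∀ v ∈ Ici (0:ℝ), v ≤ N → Y (⌈v⌉₊ + 1) v = Y N v := by
    intro v hv hvN
    rcases le_total (⌈v⌉₊ + 1) N with h | h
    · exact hagree _ _ h ⟨hv, (Nat.le_ceil v).trans (by exact_mod_cast Nat.le_succ _)⟩
    · exact (hagree _ _ h ⟨hv, hvN⟩).symm
  have htN : t < N := by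
    rw [hN]; push_cast
    linarith [Nat.le_ceil t]
  have hd := hY N t ⟨ht, htN.le⟩
  have hnhds : Icc (0:ℝ) N ∈ 𝓝[Ici 0] t := by
    rw [mem_nhdsWithin]
    exact ⟨Iio N, isOpen_Iio, htN, fun v hv => ⟨hv.2, le_of_lt hv.1⟩⟩
  have h2 := hd.mono_of_mem_nhdsWithin hnhds
  refine h2.congr_of_eventuallyEq ?_ rfl
  filter_upwards [hnhds] with v hv using hnear v hv.1 hv.2

end Vale.Agent.P072
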