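import Vale.Agent.P072.Defs
import Vale.Agent.P072.Flow

/-!
Permanence from a weak Lyapunov function which drops strictly outside a compact set, together with
local functions which keep trajectories away from the boundary.
-/

namespace Vale.Agent.P072

open Set Filter
open scoped Topology

variable {d : ℕ}

/-- `g` is a subgradient selection of `V` on the positive orthant, bounded on boxes, along which
the field does not increase `V` on the class `P`. -/
def IsDescent (F : (Fin d → ℝ) → Fin d → ℝ) (P : Set (Fin d → ℝ))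
    (V : (Fin d → ℝ) → ℝ) (g : (Fin d → ℝ) → Fin d → ℝ) : Prop :=
  (∀ x z, (∀ i, 0 < x i) → (∀ i, 0 < z i) → V x + ∑ i, g x i * (z i - x i) ≤ V z) ∧
  (∀ x ∈ P, ∑ i, g x i * F x i ≤ 0) ∧
  (∀ a b, 0 < a → ∃ L, ∀ x, (∀ i, x i ∈ Icc a b) → ∀ i, |g x i| ≤ L)

section aux

variable {R : Finset (Cpx d × Cpx d)} {k : Cpx d → Cpx d → ℝ} {c : Fin d → ℝ}
  {V : (Fin d → ℝ) → ℝ} {g : (Fin d → ℝ) → Fin d → ℝ}

/-- A compact subset of the class keeps away from the faces. -/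
lemma exists_coord_lower {S : Set (Fin d → ℝ)} (hS : IsCompact S)
    (hpos : ∀ z ∈ S, ∀ i, 0 < z i) : ∃ a, 0 < a ∧ ∀ z ∈ S, ∀ i, a ≤ z i := by
  have h : ∀ i, ∃ a, 0 < a ∧ ∀ z ∈ S, a ≤ z i := fun i => by
    rcases S.eq_empty_or_nonempty with h | h
    · exact ⟨1, one_pos, by simp [h]⟩
    · obtain ⟨z₁, hz₁, hmin⟩ := hS.exists_isMinOn h (continuous_apply i).continuousOn
      exact ⟨z₁ i, hpos z₁ hz₁ i, fun z hz => hmin hz⟩
  choose f hf0 hf using h
  rcases isEmpty_or_nonempty (Fin d) with h | h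
  · exact ⟨1, one_pos, fun _ _ i => isEmptyElim i⟩
  · obtain ⟨i₁, hi₁⟩ := Finite.exists_min f
    exact ⟨f i₁, hf0 i₁, fun z hz i => (hi₁ i).trans (hf i z hz)⟩

lemma isClosed_coset (R : Finset (Cpx d × Cpx d)) (c : Fin d → ℝ) :
    IsClosed {z : Fin d → ℝ | z - c ∈ stoich R} :=
  (stoich R).closed_of_finiteDimensional.preimage (continuous_id.sub continuous_const)

/-- A function with bounded subgradients is bounded above on compact positive sets. -/
lemma exists_upper (hV : IsDescent (field R k) (posClass R c) V g) (hc : ∀ i, 0 < c i)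
    {S : Set (Fin d → ℝ)} (hS : IsCompact S) (hpos : ∀ z ∈ S, ∀ i, 0 < z i) :
    ∃ M, ∀ z ∈ S, V z ≤ M := by
  obtain ⟨a, ha, haS⟩ := exists_coord_lower hS hpos
  obtain ⟨b, hb⟩ := hS.exists_bound_of_continuousOn continuous_id.continuousOn
  obtain ⟨L, hL⟩ := hV.2.2 a b ha
  refine ⟨V c + ∑ i, |L| * (b + c i), fun z hz => ?_⟩
  have hzb : ∀ i, z i ≤ b := fun i =>
    (le_abs_self _).trans ((norm_le_pi_norm z i).trans (hb z hz))
  have h := hV.1 z c (hpos z hz) hc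
  have h2 : -(∑ i, g z i * (c i - z i)) ≤ ∑ i, |L| * (b + c i) := by
    rw [← Finset.sum_neg_distrib]
    refine Finset.sum_le_sum fun i _ => (neg_le_abs _).trans ?_
    rw [abs_mul]
    refine mul_le_mul ((hL z (fun j => ⟨haS z hz j, hzb j⟩) i).trans (le_abs_self L)) ?_
      (abs_nonneg _) (abs_nonneg _)
    have := hpos z hz i
    have := hc i
    exact abs_le.2 ⟨by linarith [hzb i], by linarith [hzb i]⟩
  linarith

/-- Solutions from the class stay in it and do not increase a descent function. -/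
lemma IsSolutionOn.stay (hk : ∀ r ∈ R, 0 < k r.1 r.2)
    (hV : IsDescent (field R k) (posClass R c) V g)
    {x : ℝ → Fin d → ℝ} (hx : IsSolutionOn R k x (Ici 0)) (h0 : x 0 ∈ posClass R c) :
    (∀ t, 0 ≤ t → x t ∈ posClass R c) ∧ ∀ s t, 0 ≤ s → s ≤ t → V (x t) ≤ V (x s) := by
  have hmem : ∀ t, 0 ≤ t → x t ∈ posClass R c := fun t ht =>
    (hx.mono_set Icc_subset_Ici_self).mem_posClass hk h0 t ⟨ht, le_rfl⟩
  refine ⟨hmem, fun s t hs hst => ?_⟩
  have h := descent (P := posClass R c) (fun z hz => hz.1) hV.1 hV.2.2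
    (hx.mono_set (S' := Icc s t) fun u hu => hs.trans hu.1) hst
    (fun u hu => hmem u (hs.trans hu.1)) (η := 0)
    (fun u hu => by rw [neg_zero]; exact hV.2.1 _ (hmem u (hs.trans hu.1)))
  simpa using h

lemma norm_le_of_pos {z : Fin d → ℝ} {B : ℝ} (h0 : ∀ i, 0 < z i) (hB : ∀ i, z i ≤ B) :
    ‖z‖ ≤ max B 0 :=
  (pi_norm_le_iff_of_nonneg (le_max_right _ _)).2 fun i => by
    rw [Real.norm_eq_abs, abs_of_pos (h0 i)]
    exact (hB i).trans (le_max_left _ _)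

/-- Global solutions exist from every point of the class. -/
lemma exists_global (hk : ∀ r ∈ R, 0 < k r.1 r.2)
    (hV : IsDescent (field R k) (posClass R c) V g)
    (hbdd : ∀ M, ∃ B, ∀ x ∈ posClass R c, V x ≤ M → ∀ i, x i ≤ B)
    {x₀ : Fin d → ℝ} (h₀ : x₀ ∈ posClass R c) :
    ∃ x : ℝ → Fin d → ℝ, x 0 = x₀ ∧ IsSolutionOn R k x (Ici 0) := by
  obtain ⟨B, hB⟩ := hbdd (V x₀)
  set B' := max B 0 + 1 with hB'
  have hB0 : 0 ≤ B' := by linarith [le_max_right B 0]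
  obtain ⟨x, hx0, hx⟩ := exists_cutoff_solution R k (neg_le_self hB0) x₀
  refine ⟨x, hx0, ?_⟩
  have hcont : ContinuousOn x (Ici 0) := fun t ht => (hx t ht).continuousWithinAt
  suffices hall : ∀ t, 0 ≤ t → ‖x t‖ < B' by
    intro t ht
    have h := hx t ht
    rwa [clamp_of_norm_le _ (hall t ht).le] at h
  by_contra hcon
  push Not at hcon
  obtain ⟨t₁, ht₁, hbad⟩ := hcon
  set Z := {t ∈ Ici (0:ℝ) | B' ≤ ‖x t‖}
  have hcl : IsClosed Z := hcont.norm.preimage_isClosed_of_isClosed isClosed_Ici isClosed_Ici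
  have hbb : BddBelow Z := ⟨0, fun t ht => ht.1⟩
  obtain ⟨hτ0, hτ⟩ := hcl.csInf_mem ⟨t₁, ht₁, hbad⟩ hbb
  set τ := sInf Z
  have hsmall : ‖x₀‖ ≤ max B 0 := norm_le_of_pos h₀.1 (hB x₀ h₀ le_rfl)
  have hτpos : 0 < τ := by
    rcases (mem_Ici.1 hτ0).lt_or_eq with h | h
    · exact h
    · rw [← h, hx0] at hτ; linarith
  have hle : ∀ t ∈ Icc 0 τ, ‖x t‖ ≤ B' := by
    intro t ht
    have hc : ContinuousOn (fun t => ‖x t‖) (Icc 0 τ) :=
      hcont.norm.mono Icc_subset_Ici_self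
    rw [← closure_Ico hτpos.ne] at hc ht
    refine le_on_closure (fun u hu => ?_) hc continuousOn_const ht
    by_contra h
    push Not at h
    exact absurd (csInf_le hbb ⟨hu.1, h.le⟩) (not_le.2 hu.2)
  have hsol : IsSolutionOn R k x (Icc 0 τ) := fun t ht => by
    have h := (hx t ht.1).mono (Icc_subset_Ici_self : Icc 0 τ ⊆ Ici 0)
    rwa [clamp_of_norm_le _ (hle t ht)] at h
  have hm := hsol.mem_posClass hk (c := c) (by rw [hx0]; exact h₀)
  have hVτ := descent (P := posClass R c) (fun z hz => hz.1) hV.1 hV.2.2 hsol hτ0 hm (η := 0)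
    (fun u hu => by rw [neg_zero]; exact hV.2.1 _ (hm u hu))
  rw [hx0] at hVτ
  have hτmem := hm τ ⟨hτ0, le_rfl⟩
  have := norm_le_of_pos hτmem.1 (hB _ hτmem (by simpa using hVτ))
  linarith

end aux

theorem permanentOn_of_lyapunov (R : Finset (Cpx d × Cpx d)) (k : Cpx d → Cpx d → ℝ)
    (hk : ∀ r ∈ R, 0 < k r.1 r.2) (c : Fin d → ℝ) (hc : ∀ i, 0 < c i)
    (V : (Fin d → ℝ) → ℝ) (g : (Fin d → ℝ) → Fin d → ℝ)
    (hV : IsDescent (field R k) (posClass R c) V g)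
    (hbdd : ∀ M, ∃ B, ∀ x ∈ posClass R c, V x ≤ M → ∀ i, x i ≤ B)
    (C₀ : Set (Fin d → ℝ)) (hC₀ : IsCompact C₀) (hC₀P : C₀ ⊆ posClass R c)
    (hdec : ∀ a b, 0 < a → ∃ η, 0 < η ∧ ∀ x ∈ posClass R c, (∀ i, x i ∈ Icc a b) →
      x ∉ C₀ → ∑ i, g x i * field R k x i ≤ -η)
    (hesc : ∀ p : Fin d → ℝ, (∀ i, 0 ≤ p i) → (∃ i, p i = 0) → p - c ∈ stoich R →
      ∃ W h, IsDescent (field R k) (posClass R c) W h ∧ ∃ v r, 0 < r ∧
        (∀ x ∈ posClass R c, dist x p < r → W x < v) ∧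
        ∀ ε, 0 < ε → ∃ r', 0 < r' ∧ ∀ x ∈ posClass R c, dist x p < r' → v - ε < W x) :
    PermanentOn R k c := by
  have hexist : ∀ x₀ ∈ posClass R c, ∃ x : ℝ → Fin d → ℝ, x 0 = x₀ ∧
      IsSolutionOn R k x (Ici 0) := fun x₀ h₀ => exists_global hk hV hbdd h₀
  have hit : ∀ x : ℝ → Fin d → ℝ, x 0 ∈ posClass R c → IsSolutionOn R k x (Ici 0) →
      ∃ t, 0 ≤ t ∧ x t ∈ C₀ := by
    intro x h0 hx
    by_contra hcon
    push Not at hcon
    obtain ⟨hmem, hdecV⟩ := hx.stay hk hV h0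
    obtain ⟨B, hB⟩ := hbdd (V (x 0))
    have hxB : ∀ t, 0 ≤ t → ∀ i, x t i ≤ B := fun t ht =>
      hB _ (hmem t ht) (hdecV 0 t le_rfl ht)
    by_cases hA : ∃ a, 0 < a ∧ ∀ t, 0 ≤ t → ∀ i, a ≤ x t i
    · obtain ⟨a, ha, hxa⟩ := hA
      obtain ⟨η, hη, hη'⟩ := hdec a B ha
      set D := ∑ i, |g (x 0) i| * (B + x 0 i) with hD
      have hD0 : 0 ≤ D := Finset.sum_nonneg fun i _ => mul_nonneg (abs_nonneg _)
        (by linarith [hxB 0 le_rfl i, h0.1 i])
      set t := D / η + 1 with ht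
      have ht0 : 0 ≤ t := by positivity
      have h1 := descent (P := posClass R c) (fun z hz => hz.1) hV.1 hV.2.2
        (hx.mono_set (S' := Icc 0 t) Icc_subset_Ici_self) ht0 (fun u hu => hmem u hu.1)
        (fun u hu => hη' _ (hmem u hu.1) (fun i => ⟨hxa u hu.1 i, hxB u hu.1 i⟩) (hcon u hu.1))
      have h2 := hV.1 _ _ h0.1 (hmem t ht0).1
      have h3 : -(∑ i, g (x 0) i * (x t i - x 0 i)) ≤ D := by
        rw [← Finset.sum_neg_distrib, hD]
        refine Finset.sum_le_sum fun i _ => (neg_le_abs _).trans ?_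
        rw [abs_mul]
        refine mul_le_mul_of_nonneg_left ?_ (abs_nonneg _)
        have := hxB t ht0 i
        have := (hmem t ht0).1 i
        have := h0.1 i
        exact abs_le.2 ⟨by linarith, by linarith⟩
      have h4 : η * (t - 0) = D + η := by rw [ht]; field_simp; ring
      linarith
    · push Not at hA
      have hA' : ∀ n : ℕ, ∃ t, 0 ≤ t ∧ ∃ i, x t i < 1 / ((n:ℝ) + 1) := fun n =>
        hA _ (by positivity)
      choose τ hτ0 hτ using hA'
      set Q := Icc (0 : Fin d → ℝ) (fun _ => B)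
      have hQ : ∀ n, x (τ n) ∈ Q := fun n =>
        ⟨fun i => ((hmem _ (hτ0 n)).1 i).le, hxB _ (hτ0 n)⟩
      obtain ⟨p, hpQ, φ, hφ, hlim⟩ := (isCompact_Icc (a := (0 : Fin d → ℝ))
        (b := fun _ => B)).tendsto_subseq hQ
      have hlim_i : ∀ i, Tendsto (fun n => x (τ (φ n)) i) atTop (𝓝 (p i)) := fun i =>
        ((continuous_apply i).tendsto p).comp hlim
      have hpc : p - c ∈ stoich R :=
        (isClosed_coset R c).mem_of_tendsto hlim
          (Eventually.of_forall fun n => (hmem _ (hτ0 _)).2)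
      have hp0 : ∃ i, p i = 0 := by
        by_contra hne
        push Not at hne
        have hpos : ∀ i, 0 < p i := fun i => lt_of_le_of_ne (hpQ.1 i) (Ne.symm (hne i))
        have hev : ∀ᶠ n in atTop, ∀ i, 1 / ((φ n : ℝ) + 1) < x (τ (φ n)) i := by
          refine eventually_all.2 fun i => ?_
          have h1 : Tendsto (fun n => 1 / ((φ n : ℝ) + 1)) atTop (𝓝 0) :=
            tendsto_one_div_add_atTop_nhds_zero_nat.comp hφ.tendsto_atTop
          exact h1.eventually_lt (hlim_i i) (hpos i)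
        obtain ⟨n, hn⟩ := hev.exists
        obtain ⟨i, hi⟩ := hτ (φ n)
        exact lt_asymm hi (hn i)
      obtain ⟨W, h, hW, v, r, hr, hWlt, hWgt⟩ := hesc p hpQ.1 hp0 hpc
      obtain ⟨n₀, hn₀⟩ := (Metric.tendsto_nhds.1 hlim r hr).exists
      simp only [Function.comp_apply] at hn₀
      set t₀ := τ (φ n₀)
      have hv₀ := hWlt _ (hmem t₀ (hτ0 _)) hn₀
      obtain ⟨r', hr', hWgt'⟩ := hWgt (v - W (x t₀)) (sub_pos.2 hv₀)
      obtain ⟨a, ha, hxa⟩ := exists_coord_lower (S := x '' Icc 0 t₀)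
        (isCompact_Icc.image_of_continuousOn (hx.continuousOn.mono Icc_subset_Ici_self))
        (by rintro _ ⟨u, hu, rfl⟩; exact (hmem u hu.1).1)
      obtain ⟨i, hpi⟩ := hp0
      have hev : ∀ᶠ n in atTop, x (τ (φ n)) i < a :=
        (hlim_i i).eventually (gt_mem_nhds (by rw [hpi]; exact ha))
      obtain ⟨n, hn1, hn2⟩ := (hev.and (Metric.tendsto_nhds.1 hlim r' hr')).exists
      simp only [Function.comp_apply] at hn2
      have hlate : t₀ ≤ τ (φ n) := by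
        by_contra hlt
        push Not at hlt
        exact absurd (hxa _ ⟨_, ⟨hτ0 _, hlt.le⟩, rfl⟩ i) (not_le.2 hn1)
      have h1 := hWgt' _ (hmem _ (hτ0 _)) hn2
      have h2 := (hx.stay hk hW h0).2 _ _ (hτ0 (φ n₀)) hlate
      linarith
  refine ⟨fun x₀ h₀ => ?_, ?_⟩
  · obtain ⟨x, hx0, hx⟩ := hexist x₀ h₀
    refine ⟨x, hx0, hx, (hx.stay hk hV (by rw [hx0]; exact h₀)).1, fun T y hy0 hy u hu => ?_⟩
    exact eqOn_Icc (hy.mono_set (Icc_subset_Ico_right hu.2))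
      (hx.mono_set Icc_subset_Ici_self) (hy0.trans hx0.symm) ⟨hu.1, le_rfl⟩
  obtain ⟨a, ha, haC⟩ := exists_coord_lower hC₀ fun z hz => (hC₀P hz).1
  set ε := a / 2 with hε
  have hε0 : 0 < ε := half_pos ha
  obtain ⟨M₁, hM₁⟩ := exists_upper hV hc hC₀ fun z hz => (hC₀P hz).1
  obtain ⟨B, hB⟩ := hbdd M₁
  set S := Icc (fun _ => ε) (fun _ : Fin d => B) ∩
    ((⋃ i, {z : Fin d → ℝ | z i = ε}) ∩ {z | z - c ∈ stoich R})
  have hS : IsCompact S := isCompact_Icc.inter_right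
    ((isClosed_iUnion_of_finite fun i => isClosed_eq (continuous_apply i) continuous_const).inter
      (isClosed_coset R c))
  have hSP : S ⊆ posClass R c := fun z hz => ⟨fun i => hε0.trans_le (hz.1.1 i), hz.2.2⟩
  obtain ⟨M₂, hM₂⟩ := exists_upper hV hc hS fun z hz => (hSP hz).1
  obtain ⟨B₂, hB₂⟩ := hbdd M₂
  obtain ⟨L, hL⟩ := exists_dist_bound (R := R) (k := k) (max B₂ 0)
  have hret : ∀ p ∈ S, ∃ T, ∃ δ, 0 ≤ T ∧ 0 < δ ∧ ∀ x : ℝ → Fin d → ℝ, x 0 ∈ S → dist (x 0) p < δ →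
      IsSolutionOn R k x (Ici 0) → ∀ i, ε < x T i := by
    intro p hp
    obtain ⟨y, hy0, hy⟩ := hexist p (hSP hp)
    obtain ⟨T, hT, hyT⟩ := hit y (by rw [hy0]; exact hSP hp) hy
    refine ⟨T, (a - ε) / Real.exp (L * T), hT, div_pos (by linarith) (Real.exp_pos _),
      fun x hxS hdist hx i => ?_⟩
    have hb : ∀ z : ℝ → Fin d → ℝ, z 0 ∈ S → IsSolutionOn R k z (Ici 0) →
        ∀ u ∈ Icc 0 T, ‖z u‖ ≤ max B₂ 0 := fun z hzS hz u hu => by
      obtain ⟨hm, hv⟩ := hz.stay hk hV (hSP hzS)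
      exact norm_le_of_pos (hm u hu.1).1
        (hB₂ _ (hm u hu.1) ((hv 0 u le_rfl hu.1).trans (hM₂ _ hzS)))
    have hd := hL x y T (hx.mono_set Icc_subset_Ici_self) (hy.mono_set Icc_subset_Ici_self)
      (hb x hxS hx) (hb y (by rw [hy0]; exact hp) hy) T ⟨hT, le_rfl⟩
    rw [hy0] at hd
    have h1 : dist (x T) (y T) < a - ε :=
      hd.trans_lt ((lt_div_iff₀ (Real.exp_pos _)).1 hdist)
    have h2 : |x T i - y T i| ≤ dist (x T) (y T) := dist_le_pi_dist (x T) (y T) i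
    linarith [(abs_le.1 h2).1, haC _ hyT i]
  choose! T δ hT0 hδ hTret using hret
  obtain ⟨F, hFS, hcov⟩ := hS.elim_nhds_subcover (fun p => Metric.ball p (δ p))
    fun p hp => Metric.ball_mem_nhds p (hδ p hp)
  set T₀ := ∑ p ∈ F, T p with hT₀
  obtain ⟨C, hC0, hC⟩ := exists_field_ge R k hk B
  refine ⟨Icc (fun _ => ε * Real.exp (-C * T₀)) (fun _ : Fin d => B) ∩ {z | z - c ∈ stoich R},
    isCompact_Icc.inter_right (isClosed_coset R c), fun z hz =>
      ⟨fun i => lt_of_lt_of_le (mul_pos hε0 (Real.exp_pos _)) (hz.1.1 i), hz.2⟩, fun x h0 hx => ?_⟩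
  obtain ⟨t₀, ht₀, hxt₀⟩ := hit x h0 hx
  obtain ⟨hmem, hdecV⟩ := hx.stay hk hV h0
  have hxB : ∀ u, t₀ ≤ u → ∀ i, x u i ≤ B := fun u hu =>
    hB _ (hmem u (ht₀.trans hu)) ((hdecV t₀ u ht₀ hu).trans (hM₁ _ hxt₀))
  refine ⟨t₀, fun t ht => ⟨⟨fun i => ?_, hxB t ht⟩, (hmem t (ht₀.trans ht)).2⟩⟩
  show ε * Real.exp (-C * T₀) ≤ x t i
  have hT₀0 : 0 ≤ T₀ := Finset.sum_nonneg fun p hp => hT0 p (hFS p hp)
  have hexp1 : Real.exp (-C * T₀) ≤ 1 := Real.exp_le_one_iff.2 (by nlinarith)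
  by_cases hin : ∀ j, ε ≤ x t j
  · exact le_trans (mul_le_of_le_one_right hε0.le hexp1) (hin i)
  set Z := {u ∈ Icc t₀ t | ∀ j, ε ≤ x u j}
  have hsub : Icc t₀ t ⊆ Ici (0:ℝ) := fun u hu => ht₀.trans hu.1
  have hZcl : IsClosed Z := by
    have : Z = Icc t₀ t ∩ x ⁻¹' Ici (fun _ => ε) := by
      ext u; simp [Z, Pi.le_def]
    rw [this]
    exact (hx.continuousOn.mono hsub).preimage_isClosed_of_isClosed isClosed_Icc isClosed_Ici
  have hbb : BddAbove Z := ⟨t, fun u hu => hu.1.2⟩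
  have hne : Z.Nonempty :=
    ⟨t₀, ⟨le_rfl, ht⟩, fun j => le_trans (by linarith) (haC _ hxt₀ j)⟩
  obtain ⟨hs, hsε⟩ := hZcl.csSup_mem hne hbb
  set s := sSup Z
  have hst : s < t := by
    rcases hs.2.lt_or_eq with h | h
    · exact h
    · exact absurd (h ▸ hsε) hin
  have hafter : ∀ u, s < u → u ≤ t → ¬ ∀ j, ε ≤ x u j := fun u hu hut hall =>
    absurd (le_csSup hbb ⟨⟨hs.1.trans hu.le, hut⟩, hall⟩) (not_le.2 hu)
  have hsS : x s ∈ S := by
    refine ⟨⟨hsε, hxB s hs.1⟩, ?_, (hmem s (ht₀.trans hs.1)).2⟩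
    by_contra hne'
    have hlt : ∀ j, ε < x s j := fun j =>
      lt_of_le_of_ne (hsε j) fun h => hne' (mem_iUnion.2 ⟨j, h.symm⟩)
    have hev : ∀ᶠ u in 𝓝[Ici 0] s, ∀ j, ε < x u j := eventually_all.2 fun j =>
      ((continuous_apply j).continuousAt.comp_continuousWithinAt
        (hx.continuousOn s (ht₀.trans hs.1))).eventually (lt_mem_nhds (hlt j))
    have hev2 : ∀ᶠ u in 𝓝[>] s, (∀ j, ε < x u j) ∧ u ≤ t :=
      ((hev.filter_mono (nhdsWithin_mono _ fun u hu => (ht₀.trans hs.1).trans hu.le))).and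
        (eventually_nhdsWithin_of_eventually_nhds (eventually_le_nhds hst))
    obtain ⟨u, ⟨h1, h2⟩, h3⟩ := (hev2.and self_mem_nhdsWithin).exists
    exact hafter u h3 h2 fun j => (h1 j).le
  obtain ⟨p, hpF, hball⟩ := mem_iUnion₂.1 (hcov hsS)
  have hback := hTret p (hFS p hpF) (fun u => x (s + u)) (by simpa using hsS)
    (by simpa [Metric.mem_ball] using hball) (hx.shift (ht₀.trans hs.1))
  have hTp : T p ≤ T₀ := Finset.single_le_sum (fun q hq => hT0 q (hFS q hq)) hpF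
  have hgap : t - s ≤ T₀ := by
    by_contra hg
    push Not at hg
    rcases (hT0 p (hFS p hpF)).lt_or_eq with h | h
    · exact hafter (s + T p) (by linarith) (by linarith) fun j => (hback j).le
    · obtain ⟨j, hj⟩ := mem_iUnion.1 hsS.2.1
      have := hback j
      simp only [← h, add_zero] at this
      exact absurd hj this.ne'
  have hlow := exp_lower_bound (i := i)
    (hx.mono_set (S' := Icc s t) fun u hu => ht₀.trans (hs.1.trans hu.1))
    (fun u hu => hC (x u) (fun j => ((hmem u (ht₀.trans (hs.1.trans hu.1))).1 j).le)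
      (hxB u (hs.1.trans hu.1)) i) hst.le
  refine le_trans ?_ hlow
  refine mul_le_mul (hsε i) (Real.exp_le_exp.2 ?_) (Real.exp_pos _).le
    ((hmem s (ht₀.trans hs.1)).1 i).le
  have := mul_le_mul_of_nonneg_left hgap hC0
  linarith

end Vale.Agent.P072
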