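import Vale.Agent.P072.Decrease
import Vale.Agent.P072.ClassBound
import Vale.Agent.P072.Ode

/-! Assembly: the Lyapunov functions give permanence. -/

namespace Vale.Agent.P072

open Finset

variable {d : ℕ}

/-- All large `D` give admissible parameters, for `K` large. -/
theorem exists_good (R : Finset (Cpx d × Cpx d)) :
    ∃ c C K D₀ : ℝ, 0 < c ∧ ∀ D, D₀ ≤ D → (⟨R, K, D⟩ : Par d).Good c C := by
  obtain ⟨c, C, hc, hc1, hC, hcoef, hsize⟩ := exists_coeff_bounds R
  set A := 2 * (((vecs R d).card : ℝ) + 1) + 4 with hA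
  set P := (32 * C / c) ^ (2 ^ (d + 1)) with hP
  have hP0 : 0 ≤ A * P := by positivity
  refine ⟨c, C, 32 * C / c, max 4 (2 * ((d : ℝ) + 2) * (2 + A * P) + 1), hc, fun D hD => ?_⟩
  have h4 : 4 ≤ D := le_trans (le_max_left _ _) hD
  have h5 := le_trans (le_max_right _ _) hD
  refine ⟨hc, hc1, hC, hcoef, hsize, ?_, h4, fun u hu => ?_⟩
  · show 32 * C ≤ c * (32 * C / c)
    rw [mul_div_cancel₀ _ hc.ne']
  · show ((d : ℝ) + 2) * (u + A * (D * P) + 4) < Real.exp u
    simp only at hu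
    have h1 := quad_le_exp (show 0 ≤ u by linarith)
    have h2 : u + A * (D * P) + 4 ≤ (2 + A * P) * u := by
      have : A * P * D ≤ A * P * u := mul_le_mul_of_nonneg_left hu hP0
      linarith
    have h3 := mul_le_mul_of_nonneg_left h2 (show (0 : ℝ) ≤ (d : ℝ) + 2 by positivity)
    have h6 : (2 * ((d : ℝ) + 2) * (2 + A * P) + 1) * u ≤ u * u :=
      mul_le_mul_of_nonneg_right (h5.trans hu) (by linarith)
    nlinarith

variable {Θ : Par d} {c C : ℝ}

theorem exists_feas (hG : Θ.Good c C) : ∃ q g, Θ.Feas q g := by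
  rcases Nat.eq_zero_or_pos d with rfl | hd
  · exact ⟨(1, fun _ => true), 0, fun a => a.elim0, fun p => p.elim0⟩
  · let p : Fin d := ⟨0, hd⟩
    have hp : ∀ q : Fin d, ¬ q < p := fun q h => Nat.not_lt_zero _ (Fin.lt_def.1 h)
    obtain ⟨t, -, -, ht⟩ := exists_avoid (Θ := Θ) (1 : Equiv.Perm (Fin d)) (fun _ => true) 0 p 0
      (lt_of_lt_of_le (by linarith [hG.D_big]) (hG.D_le_rad _ p)) (hG.rad_le_top _ p)
    exact ⟨_, _, feas_common (σ := (1 : Equiv.Perm (Fin d))) (φ := fun _ => true) (g := 0) p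
      (fun _ b _ hb => absurd hb (hp b)) (fun q hq => absurd hq (hp q)) t true
      (fun q hq => absurd hq (hp q)) (by simpa using ht)⟩

open scoped Classical in
/-- A maximizer at each positive point. -/
noncomputable def Par.sel (Θ : Par d) (x : Fin d → ℝ) : Fin d → ℝ :=
  if h : ∃ q g, Θ.IsMax q g x then h.choose_spec.choose else 0

theorem sel_spec (hG : Θ.Good c C) {x : Fin d → ℝ} (hx : ∀ i, 0 < x i) :
    ∃ q, Θ.IsMax q (Θ.sel x) x := by
  obtain ⟨q, g, hf, hv⟩ := exists_isMax Θ hx (exists_feas hG)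
  have h : ∃ q g, Θ.IsMax q g x := ⟨q, g, hf, hv⟩
  rw [Par.sel, dif_pos h]
  exact ⟨_, h.choose_spec.choose_spec⟩

theorem sel_close (hG : Θ.Good c C) {x : Fin d → ℝ} (hx : ∀ i, 0 < x i) (i : Fin d) :
    |Real.log (x i) - Θ.sel x i| ≤ 5 * Θ.top := by
  obtain ⟨⟨σ, φ⟩, h⟩ := sel_spec hG hx
  exact (close hG h hx i).1

theorem isDescent_lyap (hG : Θ.Good c C) (hwr : WeaklyReversible Θ.R) (k : Cpx d → Cpx d → ℝ)
    {kmin kmax : ℝ} (hmin0 : 0 < kmin) (hk1 : ∀ r ∈ Θ.R, kmin ≤ k r.1 r.2)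
    (hk2 : ∀ r ∈ Θ.R, k r.1 r.2 ≤ kmax) (hD : 4 * Θ.R.card * kmax ≤ kmin * c * Θ.D)
    (c₀ : Fin d → ℝ) :
    IsDescent (field Θ.R k) (posClass Θ.R c₀) Θ.lyap Θ.sel := by
  refine ⟨fun x z hx hz => ?_, fun x hx => ?_, fun a b ha => ?_⟩
  · obtain ⟨q, hf, hv⟩ := sel_spec hG hx
    have h := val_le_lyap Θ hf (x := z) (fun i => (hz i).le)
    rw [val_sub Θ q (Θ.sel x) x z] at h
    rw [hv]; exact h
  · obtain ⟨⟨σ, φ⟩, h⟩ := sel_spec hG hx.1
    exact (decrease hG hwr k hmin0 hk1 hk2 hD h hx.1).1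
  · refine ⟨|Real.log a| + |Real.log b| + 5 * Θ.top, fun x hx i => ?_⟩
    have hxp : ∀ j, 0 < x j := fun j => lt_of_lt_of_le ha (hx j).1
    have h1 := abs_le.1 (sel_close hG hxp i)
    have h2 := Real.log_le_log ha (hx i).1
    have h3 := Real.log_le_log (hxp i) (hx i).2
    refine abs_le.2 ⟨?_, ?_⟩
    · linarith [neg_abs_le (Real.log a), abs_nonneg (Real.log b)]
    · linarith [le_abs_self (Real.log b), abs_nonneg (Real.log a)]

theorem sublevel_bounded (hG : Θ.Good c C) (c₀ : Fin d → ℝ) :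
    ∀ M, ∃ B, ∀ x ∈ posClass Θ.R c₀, Θ.lyap x ≤ M → ∀ i, x i ≤ B := by
  intro M
  set T := 2 * (((vecs Θ.R d).card : ℝ) + 1) * Θ.top + 1 with hT
  refine ⟨M + 2 * Real.exp T, fun x hx hM i => ?_⟩
  let p : Fin d := ⟨0, lt_of_le_of_lt (Nat.zero_le _) i.2⟩
  have hp : ∀ q : Fin d, ¬ q < p := fun q h => Nat.not_lt_zero _ (Fin.lt_def.1 h)
  obtain ⟨t, htT, htlow, ht⟩ := exists_avoid (Θ := Θ) (1 : Equiv.Perm (Fin d)) (fun _ => true) 0 p T
    (lt_of_lt_of_le (by linarith [hG.D_big]) (hG.D_le_rad _ p)) (hG.rad_le_top _ p)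
  have hfeas := feas_common (σ := (1 : Equiv.Perm (Fin d))) (φ := fun _ => true) (g := 0) p
      (fun _ b _ hb => absurd hb (hp b)) (fun q hq => absurd hq (hp q)) t true
      (fun q hq => absurd hq (hp q)) (by simpa using ht)
  have h := val_le_lyap Θ hfeas (x := x) (fun j => (hx.1 j).le)
  have hw := weight_le hG (φ := fun _ => true) p true
  rw [if_pos rfl, Finset.filter_true_of_mem (fun s _ => hp s)] at hw
  have hval : t * ∑ j, x j - 2 * Real.exp t ≤ Θ.lyap x := by
    refine le_trans ?_ h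
    simp only [Par.val]
    rw [Finset.sum_sub_distrib]
    refine sub_le_sub (le_of_eq ?_) ?_
    · rw [Finset.mul_sum]
      exact Finset.sum_congr rfl fun s _ => by simp [hp, mul_comm]
    · refine le_trans (le_of_eq ?_) (mul_le_mul_of_nonneg_right hw (Real.exp_pos t).le)
      rw [Finset.sum_mul]
      exact Finset.sum_congr rfl fun s _ => by simp [hp]
  have h1 : x i ≤ t * ∑ j, x j := by
    refine le_trans (Finset.single_le_sum (f := x) (fun j _ => (hx.1 j).le) (mem_univ i)) ?_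
    exact le_mul_of_one_le_left (Finset.sum_nonneg fun j _ => (hx.1 j).le) (by linarith)
  linarith [Real.exp_le_exp.2 htT]

theorem escape (hG : Θ.Good c C) (hwr : WeaklyReversible Θ.R) (k : Cpx d → Cpx d → ℝ)
    {kmin kmax : ℝ} (hmin0 : 0 < kmin) (hk1 : ∀ r ∈ Θ.R, kmin ≤ k r.1 r.2)
    (hk2 : ∀ r ∈ Θ.R, k r.1 r.2 ≤ kmax) (hD : 4 * Θ.R.card * kmax ≤ kmin * c * Θ.D)
    (c₀ p : Fin d → ℝ) (hp : ∀ i, 0 ≤ p i) (hz : ∃ i, p i = 0)
    (hDp : ∀ i, 4 * (|Real.log (p i)| + 1) < 3 * (c * Θ.D)) :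
    ∃ W h, IsDescent (field Θ.R k) (posClass Θ.R c₀) W h ∧ ∃ v r, 0 < r ∧
      (∀ x ∈ posClass Θ.R c₀, dist x p < r → W x < v) ∧
      ∀ ε, 0 < ε → ∃ r', 0 < r' ∧ ∀ x ∈ posClass Θ.R c₀, dist x p < r' → v - ε < W x := by
  refine ⟨Θ.lyap, Θ.sel, isDescent_lyap hG hwr k hmin0 hk1 hk2 hD c₀, Θ.lyap p, ?_⟩
  classical
  set δ : Fin d → ℝ := fun i => if 0 < p i then min 1 (p i / 2) else 1 with hδ
  have hδ0 : ∀ i, 0 < δ i := fun i => by
    simp only [hδ]; split
    · exact lt_min one_pos (by linarith)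
    · exact one_pos
  have hδ1 : ∀ i, δ i ≤ 1 := fun i => by
    simp only [hδ]; split
    · exact min_le_left _ _
    · exact le_rfl
  have hprod0 : 0 < ∏ i, δ i := Finset.prod_pos fun i _ => hδ0 i
  refine ⟨Real.exp (-(5 * Θ.top) - 1) * ∏ i, δ i, by positivity, fun x hx hdist => ?_, ?_⟩
  · have hxi : ∀ i, |x i - p i| < Real.exp (-(5 * Θ.top) - 1) * ∏ j, δ j := fun i => by
      rw [← Real.dist_eq]; exact lt_of_le_of_lt (dist_le_pi_dist x p i) hdist
    have he1 : Real.exp (-(5 * Θ.top) - 1) ≤ 1 :=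
      Real.exp_le_one_iff.2 (by linarith [hG.D_le_top, hG.D_big])
    obtain ⟨⟨σ, φ⟩, hmax⟩ := sel_spec hG hx.1
    have hzero : ∀ i, 0 < p i → Θ.sel x i = 0 := by
      intro i hpi
      by_contra hne
      have hsmall : |x i - p i| < p i / 2 := by
        refine lt_of_lt_of_le (hxi i) ?_
        refine le_trans (mul_le_of_le_one_left hprod0.le he1) ?_
        rw [← Finset.mul_prod_erase univ δ (mem_univ i)]
        refine le_trans (mul_le_of_le_one_right (hδ0 i).le
          (Finset.prod_le_one (fun j _ => (hδ0 j).le) (fun j _ => hδ1 j))) ?_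
        simp [hδ, hpi]
      have h1 := abs_lt.1 hsmall
      have h2 : |Real.log (x i) - Real.log (p i)| ≤ 1 := by
        have hl2 : Real.log 2 ≤ 1 := by
          have := Real.log_le_sub_one_of_pos (show (0:ℝ) < 2 by norm_num); linarith
        refine abs_le.2 ⟨?_, ?_⟩
        · have := Real.log_le_log (show 0 < p i / 2 by linarith) (show p i / 2 ≤ x i by linarith)
          rw [Real.log_div hpi.ne' two_ne_zero] at this
          linarith
        · have := Real.log_le_log (hx.1 i) (show x i ≤ 2 * p i by linarith)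
          rw [Real.log_mul two_ne_zero hpi.ne'] at this
          linarith
      obtain ⟨h3, h4⟩ := track hG hmax hx.1 (unit_mem i) (by rwa [dot_unit])
      rw [dot_unit, dot_unit] at h3
      rw [dot_unit] at h4
      have h5 := abs_sub_abs_le_abs_sub (Θ.sel x i) (Real.log (x i))
      rw [abs_sub_comm] at h5
      have h6 := abs_sub_abs_le_abs_sub (Real.log (x i)) (Real.log (p i))
      linarith [hDp i]
    have hneg : ∀ i, p i = 0 → Θ.sel x i < 0 := by
      intro i hpi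
      have h := hxi i
      rw [hpi, sub_zero, abs_of_pos (hx.1 i)] at h
      have h1 : x i ≤ Real.exp (-(5 * Θ.top) - 1) :=
        h.le.trans (mul_le_of_le_one_right (Real.exp_pos _).le
          (Finset.prod_le_one (fun j _ => (hδ0 j).le) (fun j _ => hδ1 j)))
      have h2 := Real.log_le_log (hx.1 i) h1
      rw [Real.log_exp] at h2
      have := abs_le.1 (sel_close hG hx.1 i)
      linarith
    obtain ⟨hf, hv⟩ := hmax
    have h := val_le_lyap Θ hf hp
    rw [val_sub Θ (σ, φ) (Θ.sel x) x p, ← hv] at h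
    have hpos : 0 < ∑ i, Θ.sel x i * (p i - x i) := by
      refine Finset.sum_pos' (fun i _ => ?_) ?_
      · rcases (hp i).lt_or_eq with h | h
        · rw [hzero i h, zero_mul]
        · rw [← h, zero_sub]; exact (mul_pos_of_neg_of_neg (hneg i h.symm) (neg_neg_of_pos (hx.1 i))).le
      · obtain ⟨i, hi⟩ := hz
        refine ⟨i, mem_univ i, ?_⟩
        rw [hi, zero_sub]
        exact mul_pos_of_neg_of_neg (hneg i hi) (neg_neg_of_pos (hx.1 i))
    linarith
  · intro ε hε
    obtain ⟨q, g, hf⟩ := exists_feas hG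
    obtain ⟨v, ⟨q, g, hf, rfl⟩, hlt⟩ := exists_lt_of_lt_csSup (s := {v | ∃ q g, Θ.Feas q g ∧ v = Θ.val q g p})
      ⟨_, q, g, hf, rfl⟩ (show Θ.lyap p - ε / 2 < sSup {v | ∃ q g, Θ.Feas q g ∧ v = Θ.val q g p} by
        unfold Par.lyap; linarith)
    set G := ∑ i, |g i| with hGdef
    have hG0 : 0 ≤ G := Finset.sum_nonneg fun i _ => abs_nonneg _
    refine ⟨ε / (2 * (G + 1)), by positivity, fun x hx hdist => ?_⟩
    have h := val_le_lyap Θ hf (x := x) (fun i => (hx.1 i).le)
    rw [val_sub Θ q g p x] at h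
    have hb : |∑ i, g i * (x i - p i)| ≤ G * dist x p := by
      rw [hGdef, Finset.sum_mul]
      refine (Finset.abs_sum_le_sum_abs _ _).trans (Finset.sum_le_sum fun i _ => ?_)
      rw [abs_mul, ← Real.dist_eq]
      exact mul_le_mul_of_nonneg_left (dist_le_pi_dist x p i) (abs_nonneg _)
    have h2 : G * dist x p ≤ ε / 2 := by
      rw [lt_div_iff₀ (by positivity)] at hdist
      have := dist_nonneg (x := x) (y := p)
      nlinarith
    have := neg_abs_le (∑ i, g i * (x i - p i))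
    linarith

/-- Every weakly reversible mass-action system is permanent on every class. -/
theorem permanentOn_of_weaklyReversible (R : Finset (Cpx d × Cpx d)) (hwr : WeaklyReversible R)
    (k : Cpx d → Cpx d → ℝ) (hk : ∀ r ∈ R, 0 < k r.1 r.2) (c₀ : Fin d → ℝ)
    (hc₀ : ∀ i, 0 < c₀ i) : PermanentOn R k c₀ := by
  classical
  obtain ⟨c, C, K, D₀, hc, hgood⟩ := exists_good R
  set A : Finset ℝ := insert 1 (R.image fun r => k r.1 r.2) with hA
  have hAne : A.Nonempty := insert_nonempty _ _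
  set kmin := A.min' hAne with hkmin
  set kmax := A.max' hAne with hkmax
  have hmin0 : 0 < kmin := by
    rw [hkmin, Finset.lt_min'_iff]
    intro a ha
    rcases mem_insert.1 ha with rfl | ha
    · exact one_pos
    · obtain ⟨r, hr, rfl⟩ := mem_image.1 ha
      exact hk r hr
  have hk1 : ∀ r ∈ R, kmin ≤ k r.1 r.2 := fun r hr =>
    A.min'_le _ (mem_insert_of_mem (mem_image_of_mem _ hr))
  have hk2 : ∀ r ∈ R, k r.1 r.2 ≤ kmax := fun r hr =>
    A.le_max' _ (mem_insert_of_mem (mem_image_of_mem (fun r => k r.1 r.2) hr))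
  set D₁ := max D₀ (4 * R.card * kmax / (kmin * c)) with hD₁
  have hDk : ∀ D, D₁ ≤ D → 4 * (R.card : ℝ) * kmax ≤ kmin * c * D := fun D hD => by
    have := le_trans (le_max_right _ _) hD
    rw [div_le_iff₀ (mul_pos hmin0 hc)] at this
    linarith
  set Θ : Par d := ⟨R, K, D₁⟩ with hΘ
  have hG : Θ.Good c C := hgood D₁ (le_max_left _ _)
  have hdes : IsDescent (field R k) (posClass R c₀) Θ.lyap Θ.sel :=
    isDescent_lyap (Θ := Θ) hG hwr k hmin0 hk1 hk2 (hDk D₁ le_rfl) c₀
  obtain ⟨a₀, b₀, ha₀, hbox⟩ := exists_box R hc₀ (M := C * (5 * Θ.top)) (by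
    have := hG.one_le_C; have := hG.D_le_top; have := hG.D_big; nlinarith)
  let C₀ : Set (Fin d → ℝ) := {x | x - c₀ ∈ stoich R ∧ ∀ i, x i ∈ Set.Icc a₀ b₀}
  have hC₀ : IsCompact C₀ := by
    refine (isCompact_Icc (a := fun _ : Fin d => a₀) (b := fun _ => b₀)).of_isClosed_subset ?_
      (fun x hx => ⟨fun i => (hx.2 i).1, fun i => (hx.2 i).2⟩)
    refine IsClosed.inter ?_ ?_
    · exact (Submodule.closed_of_finiteDimensional (stoich R)).preimage
        (continuous_id.sub continuous_const)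
    · show IsClosed {x : Fin d → ℝ | ∀ i, x i ∈ Set.Icc a₀ b₀}
      have e : {x : Fin d → ℝ | ∀ i, x i ∈ Set.Icc a₀ b₀}
          = ⋂ i, (fun x : Fin d → ℝ => x i) ⁻¹' Set.Icc a₀ b₀ := by
        ext x; rw [Set.mem_iInter]; exact Iff.rfl
      rw [e]
      exact isClosed_iInter fun i => isClosed_Icc.preimage (continuous_apply i)
  refine permanentOn_of_lyapunov R k hk c₀ hc₀ Θ.lyap Θ.sel hdes
    (sublevel_bounded (Θ := Θ) hG c₀) C₀ hC₀
    (fun x hx => ⟨fun i => lt_of_lt_of_le ha₀ (hx.2 i).1, hx.1⟩) ?_ ?_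
  · intro a b ha
    set m := ∏ e ∈ R, min 1 (∏ j, a ^ e.1 j) with hm
    have hm0 : 0 < m := Finset.prod_pos fun e _ => lt_min one_pos (by positivity)
    have hcD : 0 < kmin * c * Θ.D / 2 := by
      have := hG.D_big; positivity
    refine ⟨kmin * c * Θ.D / 2 * m, mul_pos hcD hm0, fun x hx hxab hxC => ?_⟩
    obtain ⟨⟨σ, φ⟩, hmax⟩ := sel_spec hG hx.1
    rcases (decrease (Θ := Θ) hG hwr k hmin0 hk1 hk2 (hDk D₁ le_rfl) hmax hx.1).2 with
      hall | ⟨e, he, hle⟩
    · refine absurd ⟨hx.2, hbox x hx fun r hr => ?_⟩ hxC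
      have h := hall r hr
      rw [← sub_zero (dot (rvec r) fun i => Real.log (x i)), ← h, ← dot_sub_right]
      refine (abs_dot_le (E := 5 * Θ.top) fun i => sel_close hG hx.1 i).trans ?_
      exact mul_le_mul_of_nonneg_right (hG.size _ (rvec_mem (fst_mem hr) (snd_mem hr)))
        (by linarith [hG.D_le_top, hG.D_big])
    · refine hle.trans ?_
      have h1 : m ≤ mono x e.1 := by
        rw [hm, ← Finset.mul_prod_erase R _ he]
        refine le_trans (mul_le_of_le_one_right (le_min zero_le_one (by positivity))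
          (Finset.prod_le_one (fun e _ => le_min zero_le_one (by positivity))
            (fun e _ => min_le_left _ _))) ((min_le_right _ _).trans ?_)
        exact Finset.prod_le_prod (fun j _ => by positivity)
          (fun j _ => pow_le_pow_left₀ ha.le (hxab j).1 _)
      have := mul_le_mul_of_nonneg_left h1 hcD.le
      linarith
  · intro p hp hz _
    set D' := D₁ + (4 / (3 * c)) * ((∑ i, |Real.log (p i)|) + 2) with hD'
    have hSp : 0 ≤ ∑ i, |Real.log (p i)| := Finset.sum_nonneg fun i _ => abs_nonneg _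
    have hD1D : D₁ ≤ D' := le_add_of_nonneg_right (by positivity)
    refine escape (Θ := ⟨R, K, D'⟩) (hgood D' (le_trans (le_max_left _ _) hD1D)) hwr k hmin0
      hk1 hk2 (hDk D' hD1D) c₀ p hp hz fun i => ?_
    have h1 : |Real.log (p i)| ≤ ∑ j, |Real.log (p j)| :=
      Finset.single_le_sum (f := fun j => |Real.log (p j)|) (fun j _ => abs_nonneg _) (mem_univ i)
    have hD10 : 0 < D₁ := by have := hG.D_big; simp only [hΘ] at this; linarith
    have h2 : 3 * (c * D') = 3 * c * D₁ + 4 * ((∑ i, |Real.log (p i)|) + 2) := by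
      rw [hD']; field_simp
    show 4 * (|Real.log (p i)| + 1) < 3 * (c * D')
    rw [h2]
    nlinarith [mul_pos hc hD10]

end Vale.Agent.P072
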