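import Vale.Agent.P072.Pieces

/-! At a maximizing piece the point `g` approximates `log x`, with an error much smaller than
every nonzero tracked combination of `g`. -/

namespace Vale.Agent.P072

open Finset

variable {d : ℕ} (Θ : Par d)

/-- The conditions asked of the parameters; `c` and `C` bound the coefficients. -/
structure Par.Good (c C : ℝ) : Prop where
  c_pos : 0 < c
  c_le : c ≤ 1
  one_le_C : 1 ≤ C
  coeff : ∀ w ∈ vecs Θ.R d, ∀ i, w i ≠ 0 → c ≤ |w i|
  size : ∀ w ∈ baseVec Θ.R, ∑ i, |w i| ≤ C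
  K_big : 32 * C ≤ c * Θ.K
  D_big : 4 ≤ Θ.D
  grow : ∀ u, Θ.D ≤ u →
    ((d : ℝ) + 2) * (u + (2 * (((vecs Θ.R d).card : ℝ) + 1) + 4) * Θ.top + 4) < Real.exp u

/-- The radius of a capped slot, zero for a free one. -/
def Par.slack (φ : Fin d → Bool) (p : Fin d) : ℝ := if φ p = true then 0 else Θ.rad φ p

section basics

variable {Θ} {c C : ℝ} (hG : Θ.Good c C)
include hG

theorem Par.Good.K32 : 32 ≤ Θ.K := by
  have := hG.c_pos; have := hG.c_le; have := hG.one_le_C; have := hG.K_big
  nlinarith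

theorem Par.Good.rad_ge (φ : Fin d → Bool) (p : Fin d) : Θ.D * Θ.K ≤ Θ.rad φ p := by
  refine mul_le_mul_of_nonneg_left ?_ (by linarith [hG.D_big])
  exact le_self_pow₀ (by linarith [hG.K32]) (by have := expo_pos φ p; omega)

theorem Par.Good.D_le_rad (φ : Fin d → Bool) (p : Fin d) : Θ.D ≤ Θ.rad φ p :=
  le_trans (le_mul_of_one_le_right (by linarith [hG.D_big]) (by linarith [hG.K32]))
    (hG.rad_ge φ p)

theorem Par.Good.rad_le_top (φ : Fin d → Bool) (p : Fin d) : Θ.rad φ p ≤ Θ.top :=
  mul_le_mul_of_nonneg_left (pow_le_pow_right₀ (by linarith [hG.K32]) (expo_le φ p))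
    (by linarith [hG.D_big])

theorem Par.Good.D_le_top : Θ.D ≤ Θ.top :=
  le_mul_of_one_le_right (by linarith [hG.D_big]) (one_le_pow₀ (by linarith [hG.K32]))

theorem Par.Good.cap_free {φ : Fin d → Bool} {a f : Fin d} (ha : φ a = false) (hf : φ f = true) :
    Θ.rad φ a * Θ.K ≤ Θ.rad φ f := by
  rw [Par.rad, Par.rad, mul_assoc, ← pow_succ]
  exact mul_le_mul_of_nonneg_left (pow_le_pow_right₀ (by linarith [hG.K32])
    (expo_cap_lt_free φ ha hf)) (by linarith [hG.D_big])

theorem Par.Good.cap_later {φ : Fin d → Bool} {a b : Fin d} (ha : φ a = false) (h : a < b) :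
    Θ.rad φ a ≤ Θ.rad φ b :=
  mul_le_mul_of_nonneg_left (pow_le_pow_right₀ (by linarith [hG.K32])
    (expo_cap_lt_later φ ha h).le) (by linarith [hG.D_big])

theorem Par.Good.slack_nonneg (φ : Fin d → Bool) (p : Fin d) : 0 ≤ Θ.slack φ p := by
  unfold Par.slack
  split
  · exact le_rfl
  · exact le_trans (by linarith [hG.D_big]) (hG.D_le_rad φ p)

theorem Par.Good.slack_le_top (φ : Fin d → Bool) (p : Fin d) : Θ.slack φ p ≤ Θ.top := by
  unfold Par.slack
  split
  · linarith [hG.D_le_top, hG.D_big]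
  · exact hG.rad_le_top φ p

theorem Par.Good.slack_free {φ : Fin d → Bool} {f : Fin d} (p : Fin d) (hf : φ f = true) :
    Θ.slack φ p * Θ.K ≤ Θ.rad φ f := by
  unfold Par.slack
  split
  · rw [zero_mul]
    exact le_trans (by linarith [hG.D_big]) (hG.D_le_rad φ f)
  · rename_i h
    exact hG.cap_free (by simpa using h) hf

theorem Par.Good.exp_big : (d : ℝ) + 2 ≤ Real.exp Θ.D := by
  have h := hG.grow Θ.D le_rfl
  have hd : 0 ≤ (d : ℝ) := Nat.cast_nonneg d
  have ht : 0 ≤ (2 * (((vecs Θ.R d).card : ℝ) + 1) + 4) * Θ.top := by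
    have := hG.D_le_top; have := hG.D_big
    exact mul_nonneg (by positivity) (by linarith)
  nlinarith [hG.D_big]

end basics

theorem dot_eq_last {σ : Equiv.Perm (Fin d)} {p : Fin d} {w : Fin d → ℝ}
    (hsupp : ∀ i, w i ≠ 0 → σ.symm i ≤ p) (g g' : Fin d → ℝ)
    (hagree : ∀ i, σ.symm i < p → g' i = g i) :
    dot w g' = dot w g + w (σ p) * (g' (σ p) - g (σ p)) := by
  have h : dot w (g' - g) = w (σ p) * (g' (σ p) - g (σ p)) := by
    refine (Finset.sum_eq_single (σ p) (fun i _ hi => ?_) (fun h => absurd (mem_univ _) h)).trans ?_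
    · by_cases hw : w i = 0
      · simp [hw]
      · rcases (hsupp i hw).lt_or_eq with h' | h'
        · simp [hagree i h']
        · exact absurd (by rw [← h']; simp) hi
    · simp
  rw [dot_sub_right] at h
  linarith

/-- The value of `g (σ p)` at which the test vector `w` vanishes. -/
noncomputable def zeroOf (σ : Equiv.Perm (Fin d)) (p : Fin d) (g w : Fin d → ℝ) : ℝ :=
  g (σ p) - dot w g / w (σ p)

theorem dot_zeroOf {σ : Equiv.Perm (Fin d)} {p : Fin d} {w : Fin d → ℝ}
    (hw : w ∈ Θ.tests σ p) (g g' : Fin d → ℝ) (hagree : ∀ i, σ.symm i < p → g' i = g i) :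
    dot w g' = w (σ p) * (g' (σ p) - zeroOf σ p g w) := by
  obtain ⟨-, h0, hs⟩ := (mem_tests Θ).1 hw
  rw [dot_eq_last hs g g' hagree, zeroOf]
  field_simp
  ring

theorem pair_mem_tests {σ : Equiv.Perm (Fin d)} {p q : Fin d} (h : q < p) :
    unit (σ p) - unit (σ q) ∈ Θ.tests σ p := by
  have hne : σ p ≠ σ q := fun e => h.ne' (σ.injective e)
  refine (mem_tests Θ).2 ⟨vecs_mono (Nat.zero_le _) (base_mem (unit_sub_mem _ _)), ?_, ?_⟩
  · simp [unit, hne]
  · intro i hi
    by_cases h1 : i = σ p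
    · simp [h1]
    · by_cases h2 : i = σ q
      · simp [h2, h.le]
      · simp [unit, h1, h2] at hi

theorem zeroOf_pair {σ : Equiv.Perm (Fin d)} {p q : Fin d} (h : q < p) (g : Fin d → ℝ) :
    zeroOf σ p g (unit (σ p) - unit (σ q)) = g (σ q) := by
  have hne : σ p ≠ σ q := fun e => h.ne' (σ.injective e)
  simp only [zeroOf, dot_sub_left, dot_unit]
  simp [unit, hne]

/-- Sum of `x` over the slots from `p` on. -/
def tailSum (σ : Equiv.Perm (Fin d)) (x : Fin d → ℝ) (p : Fin d) : ℝ :=
  ∑ s ∈ univ.filter (fun s => ¬ s < p), x (σ s)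

/-- A maximizing feasible point. -/
def Par.IsMax (c : Piece d) (g x : Fin d → ℝ) : Prop :=
  Θ.Feas c g ∧ Θ.lyap x = Θ.val c g x

theorem tail_le_mul (σ : Equiv.Perm (Fin d)) (φ : Fin d → Bool) (g x : Fin d → ℝ)
    (hanti : Antitone (g ∘ σ)) (hx : ∀ i, 0 < x i) (p : Fin d) :
    ∑ s ∈ univ.filter (fun s => ¬ s < p),
        (x (σ s) * g (σ s) - Θ.wt φ s * Real.exp (g (σ s)))
      ≤ g (σ p) * tailSum σ x p - Θ.wt φ p * Real.exp (g (σ p)) := by
  have hp : p ∈ univ.filter (fun s => ¬ s < p) := by simp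
  rw [Finset.sum_sub_distrib, tailSum, Finset.mul_sum]
  refine sub_le_sub (Finset.sum_le_sum fun s hs => ?_)
    (Finset.single_le_sum (f := fun s => Θ.wt φ s * Real.exp (g (σ s))) (fun s _ =>
      mul_nonneg (wt_pos Θ φ s).le (Real.exp_pos _).le) hp)
  rw [mul_comm (g (σ p))]
  exact mul_le_mul_of_nonneg_left (hanti (not_lt.1 (mem_filter.1 hs).2)) (hx _).le

section max

variable {Θ} {c C : ℝ} (hG : Θ.Good c C)
include hG

omit hG in
/-- Replacing the slots from `p` on by one common value is feasible under the condition at `p`. -/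
theorem feas_common {σ : Equiv.Perm (Fin d)} {φ : Fin d → Bool} {g : Fin d → ℝ}
    (p : Fin d) (hanti : ∀ a b, a ≤ b → b < p → g (σ b) ≤ g (σ a))
    (hfeas : ∀ q, q < p → Θ.FeasAt (σ, φ) g q) (v : ℝ) (b : Bool)
    (hv : ∀ q, q < p → v ≤ g (σ q))
    (hcond : if b = true then ∀ w ∈ Θ.tests σ p, Θ.rad φ p ≤ |v - zeroOf σ p g w|
      else ∃ w ∈ Θ.tests σ p, v = zeroOf σ p g w) :
    Θ.Feas (σ, fun s => if s < p then φ s else if s = p then b else false)
      (fun i => if σ.symm i < p then g i else v) := by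
  set φ' : Fin d → Bool := fun s => if s < p then φ s else if s = p then b else false with hφ'
  set g' : Fin d → ℝ := fun i => if σ.symm i < p then g i else v with hg'
  have hexp : ∀ q, q ≤ p → Θ.rad φ' q = Θ.rad φ q := by
    intro q hq
    rw [Par.rad, Par.rad, expo_congr (fun r hr => ?_)]
    simp [hφ', lt_of_lt_of_le hr hq]
  refine ⟨?_, fun q => ?_⟩
  · intro s t hst
    simp only [hg', Function.comp, Equiv.symm_apply_apply]
    by_cases ht : t < p
    · rw [if_pos ht, if_pos (lt_of_le_of_lt hst ht)]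
      exact hanti s t hst ht
    · rw [if_neg ht]
      by_cases hs : s < p
      · rw [if_pos hs]; exact hv s hs
      · rw [if_neg hs]
  · rcases lt_trichotomy q p with hq | rfl | hq
    · have hdot : ∀ w ∈ Θ.tests σ q, dot w g' = dot w g := by
        intro w hw
        refine dot_congr fun i hi => ?_
        simp only [hg']
        rw [if_pos (lt_of_le_of_lt (((mem_tests Θ).1 hw).2.2 i hi) hq)]
      have h := hfeas q hq
      unfold Par.FeasAt at h ⊢
      simp only at h ⊢
      rw [show φ' q = φ q by simp [hφ', hq], hexp q hq.le]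
      by_cases hf : φ q = true
      · rw [if_pos hf] at h ⊢
        intro w hw; rw [hdot w hw]; exact h w hw
      · rw [if_neg hf] at h ⊢
        obtain ⟨w, hw, h0⟩ := h
        exact ⟨w, hw, by rw [hdot w hw]; exact h0⟩
    · unfold Par.FeasAt
      simp only
      rw [show φ' q = b by simp [hφ'], hexp q le_rfl]
      have hdot : ∀ w ∈ Θ.tests σ q, dot w g' = w (σ q) * (v - zeroOf σ q g w) := by
        intro w hw
        rw [dot_zeroOf Θ hw g g' (fun i hi => by simp [hg', hi])]
        simp [hg']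
      by_cases hb : b = true
      · rw [if_pos hb] at hcond ⊢
        intro w hw
        rw [hdot w hw, abs_mul]
        exact mul_le_mul_of_nonneg_left (hcond w hw) (abs_nonneg _)
      · rw [if_neg hb] at hcond ⊢
        obtain ⟨w, hw, h0⟩ := hcond
        exact ⟨w, hw, by rw [hdot w hw, h0, sub_self, mul_zero]⟩
    · unfold Par.FeasAt
      simp only
      rw [show φ' q = false by simp [hφ', not_lt.2 hq.le, hq.ne'], if_neg (by simp)]
      refine ⟨_, pair_mem_tests Θ hq, ?_⟩
      rw [dot_sub_left, dot_unit, dot_unit]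
      simp [hg', not_lt.2 hq.le]

/-- A bound on the total weight of the common tail. -/
theorem weight_le {φ : Fin d → Bool} (p : Fin d) (b : Bool) :
    ∑ s ∈ univ.filter (fun s => ¬ s < p),
        Θ.wt (fun s => if s < p then φ s else if s = p then b else false) s
      ≤ if b = true then 2 else Real.exp (-2 * Θ.rad φ p) := by
  set φ' : Fin d → Bool := fun s => if s < p then φ s else if s = p then b else false with hφ'
  have hp : p ∈ univ.filter (fun s => ¬ s < p) := by simp
  have hrp : Θ.rad φ' p = Θ.rad φ p := by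
    rw [Par.rad, Par.rad, expo_congr (fun r hr => ?_)]
    simp [hφ', hr]
  rw [← Finset.add_sum_erase _ _ hp]
  set r := if b = true then Θ.D else Θ.rad φ p with hr
  have hrD : Θ.D ≤ r := by
    rw [hr]; split
    · exact le_rfl
    · exact hG.D_le_rad φ p
  have hle : ∀ s ∈ (univ.filter (fun s => ¬ s < p)).erase p,
      Θ.wt φ' s ≤ Real.exp (-3 * r) := by
    intro s hs
    obtain ⟨hne, hs⟩ := mem_erase.1 hs
    have hps : p < s := lt_of_le_of_ne (not_lt.1 (mem_filter.1 hs).2) (Ne.symm hne)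
    have hφs : φ' s = false := by simp [hφ', not_lt.2 hps.le, hne]
    rw [Par.wt, if_neg (by simp [hφs])]
    refine Real.exp_le_exp.2 ?_
    have : r ≤ Θ.rad φ' s := by
      rw [hr]; split
      · exact hG.D_le_rad φ' s
      · rename_i hb
        rw [← hrp]
        exact hG.cap_later (by simp [hφ']; simpa using hb) hps
    linarith
  have hsum := Finset.sum_le_card_nsmul _ _ _ hle
  have hcard : ((((univ.filter (fun s => ¬ s < p)).erase p).card : ℕ) : ℝ) ≤ d := by
    have := ((univ.filter (fun s => ¬ s < p)).erase p).card_le_univ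
    simp only [Fintype.card_fin] at this
    exact_mod_cast this
  rw [nsmul_eq_mul] at hsum
  have hexp : ((d : ℝ) + 1) * Real.exp (-3 * r) ≤ Real.exp (-2 * r) := by
    have h1 : ((d : ℝ) + 1) ≤ Real.exp r :=
      le_trans (le_trans (by linarith) hG.exp_big) (Real.exp_le_exp.2 hrD)
    calc ((d : ℝ) + 1) * Real.exp (-3 * r) ≤ Real.exp r * Real.exp (-3 * r) :=
          mul_le_mul_of_nonneg_right h1 (Real.exp_pos _).le
      _ = Real.exp (-2 * r) := by rw [← Real.exp_add]; ring_nf
  have hm : ((((univ.filter (fun s => ¬ s < p)).erase p).card : ℕ) : ℝ) * Real.exp (-3 * r)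
      ≤ d * Real.exp (-3 * r) := mul_le_mul_of_nonneg_right hcard (Real.exp_pos _).le
  by_cases hb : b = true
  · rw [if_pos hb]
    have hw : Θ.wt φ' p = 1 := by simp [Par.wt, hφ', hb]
    have : Real.exp (-2 * r) ≤ 1 := Real.exp_le_one_iff.2 (by linarith [hG.D_big])
    have := Real.exp_pos (-3 * r)
    nlinarith
  · rw [if_neg hb]
    have hw : Θ.wt φ' p = Real.exp (-3 * Θ.rad φ p) := by
      rw [Par.wt, if_neg (by simpa [hφ'] using hb), hrp]
    have hr' : r = Θ.rad φ p := by rw [hr, if_neg hb]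
    rw [hr'] at hm hexp hsum
    rw [hw]
    nlinarith

/-- The comparison with the common-value competitor. -/
theorem compete {σ : Equiv.Perm (Fin d)} {φ : Fin d → Bool} {g x : Fin d → ℝ}
    (hmax : Θ.IsMax (σ, φ) g x) (hx : ∀ i, 0 < x i) (p : Fin d) (v : ℝ) (b : Bool)
    (hv : ∀ q, q < p → v ≤ g (σ q))
    (hcond : if b = true then ∀ w ∈ Θ.tests σ p, Θ.rad φ p ≤ |v - zeroOf σ p g w|
      else ∃ w ∈ Θ.tests σ p, v = zeroOf σ p g w) :
    (v - g (σ p)) * tailSum σ x p + Θ.wt φ p * Real.exp (g (σ p))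
      ≤ (if b = true then 2 else Real.exp (-2 * Θ.rad φ p)) * Real.exp v := by
  obtain ⟨hf, hval⟩ := hmax
  have hanti : Antitone (g ∘ σ) := hf.1
  have hfeas' := feas_common (σ := σ) (φ := φ) (g := g) p (fun a b hab _ => hanti hab) (fun q _ => hf.2 q) v b hv hcond
  have h := val_le_lyap Θ hfeas' (fun i => (hx i).le)
  rw [hval] at h
  unfold Par.val at h
  simp only at h
  rw [← Finset.sum_filter_add_sum_filter_not univ (fun s => s < p),
    ← Finset.sum_filter_add_sum_filter_not univ (fun s => s < p)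
      (fun s => x (σ s) * g (σ s) - Θ.wt φ s * Real.exp (g (σ s)))] at h
  have e1 : ∑ s ∈ univ.filter (fun s => s < p),
      (x (σ s) * (if σ.symm (σ s) < p then g (σ s) else v) -
        Θ.wt (fun t => if t < p then φ t else if t = p then b else false) s *
          Real.exp (if σ.symm (σ s) < p then g (σ s) else v))
      = ∑ s ∈ univ.filter (fun s => s < p),
      (x (σ s) * g (σ s) - Θ.wt φ s * Real.exp (g (σ s))) := by
    refine Finset.sum_congr rfl fun s hs => ?_
    have hs' : s < p := (mem_filter.1 hs).2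
    rw [Equiv.symm_apply_apply, if_pos hs']
    simp only [Par.wt, hs', if_true, Par.rad]
    rw [expo_congr (fun r hr => ?_)]
    simp [hr.trans hs']
  have e2 : ∑ s ∈ univ.filter (fun s => ¬ s < p),
      (x (σ s) * (if σ.symm (σ s) < p then g (σ s) else v) -
        Θ.wt (fun t => if t < p then φ t else if t = p then b else false) s *
          Real.exp (if σ.symm (σ s) < p then g (σ s) else v))
      = v * tailSum σ x p - (∑ s ∈ univ.filter (fun s => ¬ s < p),
        Θ.wt (fun t => if t < p then φ t else if t = p then b else false) s) * Real.exp v := by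
    rw [tailSum, Finset.mul_sum, Finset.sum_mul, ← Finset.sum_sub_distrib]
    refine Finset.sum_congr rfl fun s hs => ?_
    rw [Equiv.symm_apply_apply, if_neg (mem_filter.1 hs).2]
    ring
  rw [e1, e2] at h
  have h3 := tail_le_mul Θ σ φ g x hanti hx p
  have h4 := mul_le_mul_of_nonneg_right (weight_le hG (φ := φ) p b) (Real.exp_pos v).le
  linarith

/-- Every nonzero tracked combination of `g` is at least a multiple of a free radius. -/
theorem nonzero_sep {σ : Equiv.Perm (Fin d)} {φ : Fin d → Bool} {g : Fin d → ℝ}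
    (hf : Θ.Feas (σ, φ) g) :
    ∀ n : ℕ, n ≤ d → ∀ w ∈ vecs Θ.R (d + 1 - n), (∀ i, w i ≠ 0 → (σ.symm i : ℕ) < n) →
      dot w g = 0 ∨ ∃ f, φ f = true ∧ c * Θ.rad φ f ≤ |dot w g| := by
  intro n
  induction n with
  | zero =>
    intro _ w _ hs
    left
    refine Finset.sum_eq_zero fun i _ => ?_
    by_cases h : w i = 0
    · simp [h]
    · exact absurd (hs i h) (Nat.not_lt_zero _)
  | succ n ih =>
    intro hn w hw hs
    have hnd : n < d := hn
    let r : Fin d := ⟨n, hnd⟩
    by_cases h0 : w (σ r) = 0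
    · refine ih hnd.le w (vecs_mono (by omega) hw) fun i hi => ?_
      have h1 := hs i hi
      rcases Nat.lt_succ_iff_lt_or_eq.1 h1 with h | h
      · exact h
      · have : σ.symm i = r := Fin.ext h
        exact absurd (by rw [← this]; simpa using hi) (fun hne : w (σ r) ≠ 0 => hne h0)
    · have hwt : w ∈ Θ.tests σ r := by
        refine (mem_tests Θ).2 ⟨?_, h0, fun i hi => ?_⟩
        · exact vecs_mono (by simp only [r]; omega) hw
        · exact Fin.le_def.2 (Nat.lt_succ_iff.1 (hs i hi))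
      have hr := hf.2 r
      unfold Par.FeasAt at hr
      by_cases hφ : φ r = true
      · rw [if_pos hφ] at hr
        right
        refine ⟨r, hφ, le_trans ?_ (hr w hwt)⟩
        exact mul_le_mul_of_nonneg_right (hG.coeff w (vecs_mono (by omega) hw) _ h0)
          (le_trans (by linarith [hG.D_big]) (hG.D_le_rad φ r))
      · rw [if_neg hφ] at hr
        obtain ⟨u, hu, hu0⟩ := hr
        obtain ⟨hu1, hu2, hu3⟩ := (mem_tests Θ).1 hu
        simp only at hu1 hu2 hu3
        have hu1' : u ∈ vecs Θ.R (d + 1 - (n + 1)) := vecs_mono (by simp only [r]; omega) hu1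
        have hm := elim_mem hw hu1' (σ r)
        rw [show d + 1 - (n + 1) + 1 = d + 1 - n by omega] at hm
        have hdot : dot (w - (w (σ r) / u (σ r)) • u) g = dot w g := by
          rw [dot_sub_left, dot_smul_left, hu0]; ring
        rw [← hdot]
        refine ih hnd.le _ hm fun i hi => ?_
        have hne : σ.symm i ≠ r := by
          intro e
          apply hi
          rw [show i = σ r by rw [← e]; simp]
          simp [div_mul_cancel₀ _ hu2]
        have hle : (σ.symm i : ℕ) ≤ n := by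
          by_cases hwi : w i = 0
          · by_cases hui : u i = 0
            · exact absurd (by simp [hwi, hui]) hi
            · exact Fin.le_def.1 (hu3 i hui)
          · exact Nat.lt_succ_iff.1 (hs i hwi)
        exact lt_of_le_of_ne hle fun e => hne (Fin.ext e)

theorem base_sep {σ : Equiv.Perm (Fin d)} {φ : Fin d → Bool} {g : Fin d → ℝ}
    (hf : Θ.Feas (σ, φ) g) {w : Fin d → ℝ} (hw : w ∈ baseVec Θ.R) (h : dot w g ≠ 0) :
    ∃ f, φ f = true ∧ c * Θ.rad φ f ≤ |dot w g| :=
  (nonzero_sep hG hf d le_rfl w (vecs_mono (Nat.zero_le _) (base_mem hw))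
    (fun i _ => (σ.symm i).2)).resolve_left h

/-- Distinct values in the order differ by much. -/
theorem gap {σ : Equiv.Perm (Fin d)} {φ : Fin d → Bool} {g : Fin d → ℝ}
    (hf : Θ.Feas (σ, φ) g) {q p : Fin d} (hqp : q < p) (hlt : g (σ p) < g (σ q)) :
    (φ p = true ∧ Θ.rad φ p ≤ g (σ q) - g (σ p)) ∨
      (φ p = false ∧ ∃ f, φ f = true ∧ c * Θ.rad φ f ≤ g (σ q) - g (σ p)) := by
  by_cases hφ : φ p = true
  · left
    have h := hf.2 p
    unfold Par.FeasAt at h
    rw [if_pos hφ] at h
    have := h _ (pair_mem_tests Θ hqp)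
    have hne : σ p ≠ σ q := fun e => hqp.ne' (σ.injective e)
    rw [dot_sub_left, dot_unit, dot_unit, abs_of_neg (sub_neg.2 hlt)] at this
    simp [unit, hne] at this
    exact ⟨hφ, by linarith⟩
  · right
    refine ⟨by simpa using hφ, ?_⟩
    obtain ⟨f, hf1, hf2⟩ := base_sep hG hf (unit_sub_mem (σ p) (σ q)) (by
      rw [dot_sub_left, dot_unit, dot_unit]; exact ne_of_lt (sub_neg.2 hlt))
    rw [dot_sub_left, dot_unit, dot_unit, abs_of_neg (sub_neg.2 hlt)] at hf2
    exact ⟨f, hf1, by linarith⟩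

theorem gap_gt_two {σ : Equiv.Perm (Fin d)} {φ : Fin d → Bool} {g : Fin d → ℝ}
    (hf : Θ.Feas (σ, φ) g) {q p : Fin d} (hqp : q < p) (hlt : g (σ p) < g (σ q)) :
    2 < g (σ q) - g (σ p) := by
  have hD := hG.D_big
  have hK := hG.K32
  rcases gap hG hf hqp hlt with ⟨-, h⟩ | ⟨-, f, -, h⟩
  · have := hG.D_le_rad φ p; linarith
  · have h1 := mul_le_mul_of_nonneg_left (hG.rad_ge φ f) hG.c_pos.le
    have h2 : 32 ≤ c * Θ.K := by linarith [hG.K_big, hG.one_le_C]
    nlinarith [mul_le_mul_of_nonneg_left h2 (show (0:ℝ) ≤ Θ.D by linarith)]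

/-- At the start of a group all later coordinates of `log x` are below its value plus a slack. -/
theorem upper {σ : Equiv.Perm (Fin d)} {φ : Fin d → Bool} {g x : Fin d → ℝ}
    (hmax : Θ.IsMax (σ, φ) g x) (hx : ∀ i, 0 < x i) (p : Fin d)
    (hstart : ∀ q, q < p → g (σ p) < g (σ q)) :
    ∀ s, p ≤ s → Real.log (x (σ s)) ≤ g (σ p) + Θ.slack φ p + 2 := by
  obtain ⟨a, ha, hmaxa⟩ := Finset.exists_max_image (univ.filter (fun s => ¬ s < p))
    (fun s => Real.log (x (σ s))) ⟨p, by simp⟩
  set Y := Real.log (x (σ a)) with hY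
  suffices hmain : Y ≤ g (σ p) + Θ.slack φ p + 2 by
    intro s hs; exact (hmaxa s (by simpa using hs)).trans hmain
  set S := tailSum σ x p with hS
  have hYS : Real.exp Y ≤ S := by
    rw [hY, Real.exp_log (hx _)]
    exact Finset.single_le_sum (f := fun s => x (σ s)) (fun s _ => (hx _).le) ha
  have hSpos : 0 < S := lt_of_lt_of_le (Real.exp_pos _) hYS
  have hwp : 0 ≤ Θ.wt φ p * Real.exp (g (σ p)) :=
    mul_nonneg (wt_pos Θ φ p).le (Real.exp_pos _).le
  have hslack := hG.slack_nonneg φ p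
  have hrad := hG.D_le_rad φ p
  have hD := hG.D_big
  have capmove : ∀ v, (∀ q, q < p → v ≤ g (σ q)) →
      (∃ w ∈ Θ.tests σ p, v = zeroOf σ p g w) → v ≤ Y + Θ.rad φ p → v - g (σ p) ≤ 1 := by
    intro v hv hw hvY
    have h := compete hG hmax hx p v false hv (by simpa using hw)
    rw [if_neg (by simp), ← Real.exp_add] at h
    have : Real.exp (-2 * Θ.rad φ p + v) ≤ S :=
      le_trans (Real.exp_le_exp.2 (by linarith)) hYS
    by_contra hcon
    nlinarith [mul_lt_mul_of_pos_right (lt_of_not_ge hcon) hSpos]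
  have notPrev : ∀ q, q < p → (∀ r, r < p → g (σ q) ≤ g (σ r)) → g (σ q) ≤ Y + Θ.rad φ p →
      False := by
    intro q hq hmin hqY
    have h1 := capmove _ hmin ⟨_, pair_mem_tests Θ hq, (zeroOf_pair hq g).symm⟩ hqY
    have h2 := gap_gt_two hG hmax.1 hq (hstart q hq)
    linarith
  have hprev : ∀ q, q < p → Y < g (σ q) := by
    intro q hq
    by_contra hcon
    obtain ⟨q0, hq0, hmin⟩ := Finset.exists_min_image (univ.filter (fun r => r < p))
      (fun r => g (σ r)) ⟨q, by simpa using hq⟩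
    have hq0' : q0 < p := (mem_filter.1 hq0).2
    refine notPrev q0 hq0' (fun r hr => hmin r (by simpa using hr)) ?_
    have := hmin q (by simpa using hq)
    linarith [not_lt.1 hcon]
  by_cases hnone : ∀ w ∈ Θ.tests σ p, Θ.rad φ p ≤ |Y - zeroOf σ p g w|
  · have h := compete hG hmax hx p Y true (fun q hq => (hprev q hq).le) (by simpa using hnone)
    rw [if_pos rfl] at h
    by_contra hcon
    nlinarith [mul_lt_mul_of_pos_right (show 2 < Y - g (σ p) by linarith [lt_of_not_ge hcon]) hSpos]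
  · push Not at hnone
    obtain ⟨w, hw, hz⟩ := hnone
    set z := zeroOf σ p g w with hzdef
    rw [abs_lt] at hz
    by_cases hzp : ∀ q, q < p → z ≤ g (σ q)
    · have h1 := capmove z hzp ⟨w, hw, rfl⟩ (by linarith [hz.1])
      by_cases hφ : φ p = true
      · have hfp := hmax.1.2 p
        unfold Par.FeasAt at hfp
        rw [if_pos hφ] at hfp
        have h2 := hfp w hw
        simp only at h2
        rw [dot_zeroOf Θ hw g g (fun i _ => rfl), abs_mul, ← hzdef] at h2
        have hwne : 0 < |w (σ p)| := abs_pos.2 ((mem_tests Θ).1 hw).2.1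
        have h3 := le_of_mul_le_mul_left h2 hwne
        rcases le_abs.1 h3 with h4 | h4
        · linarith [hz.2]
        · linarith
      · have : Θ.slack φ p = Θ.rad φ p := if_neg hφ
        linarith [hz.2]
    · push Not at hzp
      obtain ⟨q, hq, hqz⟩ := hzp
      obtain ⟨q0, hq0, hmin⟩ := Finset.exists_min_image (univ.filter (fun r => r < p))
        (fun r => g (σ r)) ⟨q, by simpa using hq⟩
      refine (notPrev q0 (mem_filter.1 hq0).2 (fun r hr => hmin r (by simpa using hr)) ?_).elim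
      have := hmin q (by simpa using hq)
      linarith [hz.1]

omit hG in
/-- The first slot of the group of `s`. -/
theorem exists_start {σ : Equiv.Perm (Fin d)} {g : Fin d → ℝ} (hanti : Antitone (g ∘ σ))
    (s : Fin d) : ∃ p, p ≤ s ∧ g (σ p) = g (σ s) ∧ ∀ q, q < p → g (σ p) < g (σ q) := by
  obtain ⟨p, hp, hmin⟩ := Finset.exists_min_image (univ.filter (fun r => g (σ r) = g (σ s))) id
    ⟨s, by simp⟩
  have hp' : g (σ p) = g (σ s) := (mem_filter.1 hp).2
  refine ⟨p, hmin s (by simp), hp', fun q hq => ?_⟩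
  refine lt_of_le_of_ne (hanti hq.le) fun e => ?_
  exact absurd (hmin q (by simp [← e, hp'])) (not_le.2 hq)

omit hG in
/-- The last slot of the group of `s`. -/
theorem exists_stop {σ : Equiv.Perm (Fin d)} {g : Fin d → ℝ} (hanti : Antitone (g ∘ σ))
    (s : Fin d) : ∃ e, g (σ e) = g (σ s) ∧ ∀ q, e < q → g (σ q) < g (σ e) := by
  obtain ⟨e, he, hmax⟩ := Finset.exists_max_image (univ.filter (fun r => g (σ r) = g (σ s))) id
    ⟨s, by simp⟩
  have he' : g (σ e) = g (σ s) := (mem_filter.1 he).2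
  refine ⟨e, he', fun q hq => ?_⟩
  refine lt_of_le_of_ne (hanti hq.le) fun h => ?_
  exact absurd (hmax q (by simp [h, he'])) (not_le.2 hq)

omit hG in
/-- A value below `T` avoiding all zeros of the tests. -/
theorem exists_avoid (σ : Equiv.Perm (Fin d)) (φ : Fin d → Bool) (g : Fin d → ℝ) (p : Fin d)
    (T : ℝ) (hr : 0 < Θ.rad φ p) (hrt : Θ.rad φ p ≤ Θ.top) :
    ∃ t, t ≤ T ∧ T - 2 * (((vecs Θ.R d).card : ℝ) + 1) * Θ.top ≤ t ∧
      ∀ w ∈ Θ.tests σ p, Θ.rad φ p ≤ |t - zeroOf σ p g w| := by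
  classical
  have hcard : (Θ.tests σ p).card ≤ (vecs Θ.R d).card :=
    Finset.card_le_card fun w hw => vecs_mono (Nat.sub_le _ _) ((mem_tests Θ).1 hw).1
  by_contra hcon
  push Not at hcon
  have hk : ∀ k : Fin ((Θ.tests σ p).card + 1), ∃ w ∈ Θ.tests σ p,
      |T - 2 * (k : ℕ) * Θ.top - zeroOf σ p g w| < Θ.rad φ p := by
    intro k
    refine hcon _ (by nlinarith [(k : ℕ).cast_nonneg (α := ℝ)]) ?_
    have : ((k : ℕ) : ℝ) ≤ ((vecs Θ.R d).card : ℝ) := by
      exact_mod_cast (Nat.lt_succ_iff.1 k.2).trans hcard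
    nlinarith
  choose F hF hF' using hk
  have hinj : ∀ a b, F a = F b → a = b := by
    intro a b e
    have ha := abs_lt.1 (hF' a)
    have hb := abs_lt.1 (hF' b)
    rw [e] at ha
    by_contra hne
    rcases lt_or_gt_of_ne (fun h : (a : ℕ) = b => hne (Fin.ext h)) with h | h
    · have : ((a : ℕ) : ℝ) + 1 ≤ ((b : ℕ) : ℝ) := by exact_mod_cast h
      nlinarith
    · have : ((b : ℕ) : ℝ) + 1 ≤ ((a : ℕ) : ℝ) := by exact_mod_cast h
      nlinarith
  have := Finset.card_le_card_of_injOn F (s := univ) (t := Θ.tests σ p)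
    (fun k _ => hF k) (fun a _ b _ e => hinj a b e)
  simp at this

/-- At the end of a group the coordinate of `log x` is not far below. -/
theorem lower {σ : Equiv.Perm (Fin d)} {φ : Fin d → Bool} {g x : Fin d → ℝ}
    (hmax : Θ.IsMax (σ, φ) g x) (hx : ∀ i, 0 < x i) (e : Fin d)
    (hend : ∀ q, e < q → g (σ q) < g (σ e)) :
    g (σ e) - 3 * Θ.slack φ e - Θ.D ≤ Real.log (x (σ e)) := by
  have hanti : Antitone (g ∘ σ) := hmax.1.1
  have hD := hG.D_big
  by_contra hcon
  have hbelow : ∀ q, e ≤ q → Real.log (x (σ q)) < g (σ e) - 3 * Θ.slack φ e - Θ.D := by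
    intro q hq
    rcases hq.lt_or_eq with hq | rfl
    · obtain ⟨p, hpq, hpg, hstart⟩ := exists_start hanti q
      have hep : e < p := by
        by_contra hpe
        have : g (σ e) ≤ g (σ p) := hanti (not_lt.1 hpe)
        have := hend q hq
        linarith
      have hu := upper hG hmax hx p hstart q hpq
      have hc := hG.c_pos
      rcases gap hG hmax.1 hep (hstart e hep) with ⟨hφ, h⟩ | ⟨hφ, f, hf, h⟩
      · have h1 := hG.slack_free e hφ
        have h2 := hG.rad_ge φ p
        have h3 : Θ.slack φ p = 0 := if_pos hφ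
        have h4 : 32 * (3 * Θ.slack φ e + Θ.D + 2) < 32 * Θ.rad φ p := by
          nlinarith [mul_le_mul_of_nonneg_left hG.K32 (hG.slack_nonneg φ e),
            mul_le_mul_of_nonneg_left hG.K32 (show (0:ℝ) ≤ Θ.D by linarith)]
        linarith
      · have h1 := hG.slack_free e hf
        have h2 := hG.rad_ge φ f
        have h3 := hG.slack_free p hf
        have hKc : 32 ≤ c * Θ.K := by linarith [hG.K_big, hG.one_le_C]
        have a1 := mul_le_mul_of_nonneg_left h1 hc.le
        have a2 := mul_le_mul_of_nonneg_left h2 hc.le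
        have a3 := mul_le_mul_of_nonneg_left h3 hc.le
        have b1 := mul_le_mul_of_nonneg_left hKc (hG.slack_nonneg φ e)
        have b2 := mul_le_mul_of_nonneg_left hKc (show (0:ℝ) ≤ Θ.D by linarith)
        have b3 := mul_le_mul_of_nonneg_left hKc (hG.slack_nonneg φ p)
        nlinarith
    · exact lt_of_not_ge hcon
  obtain ⟨a, ha, hmaxa⟩ := Finset.exists_max_image (univ.filter (fun s => ¬ s < e))
    (fun s => Real.log (x (σ s))) ⟨e, by simp⟩
  set Y := Real.log (x (σ a)) with hY
  have hYlt := hbelow a (not_lt.1 (mem_filter.1 ha).2)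
  rw [← hY] at hYlt
  obtain ⟨t, htY, htlow, hzero⟩ := exists_avoid σ φ g e Y
    (lt_of_lt_of_le (by linarith) (hG.D_le_rad φ e)) (hG.rad_le_top φ e)
  have hsl := hG.slack_nonneg φ e
  have h := compete hG hmax hx e t true
    (fun q hq => by have : g (σ e) ≤ g (σ q) := hanti hq.le; linarith) (by simpa using hzero)
  rw [if_pos rfl] at h
  have hS : tailSum σ x e ≤ d * Real.exp Y := by
    refine (Finset.sum_le_card_nsmul _ _ (Real.exp Y) fun s hs => ?_).trans ?_
    · rw [← Real.exp_log (hx (σ s))]; exact Real.exp_le_exp.2 (hmaxa s hs)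
    · rw [nsmul_eq_mul]
      refine mul_le_mul_of_nonneg_right ?_ (Real.exp_pos _).le
      have := (univ.filter (fun s : Fin d => ¬ s < e)).card_le_univ
      simp only [Fintype.card_fin] at this
      exact_mod_cast this
  have hm : Θ.wt φ e = Real.exp (-3 * Θ.slack φ e) := by
    unfold Par.wt Par.slack; split <;> simp
  rw [hm, ← Real.exp_add] at h
  set u := g (σ e) - 3 * Θ.slack φ e - Y with hu
  have hgrow := hG.grow u (by linarith)
  have he1 : Real.exp (-3 * Θ.slack φ e + g (σ e)) = Real.exp u * Real.exp Y := by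
    rw [← Real.exp_add]; congr 1; rw [hu]; ring
  rw [he1] at h
  have hst := hG.slack_le_top φ e
  have hd0 : (0 : ℝ) ≤ d := Nat.cast_nonneg d
  have hgap : 0 ≤ g (σ e) - t := by linarith
  have h5 := mul_le_mul_of_nonneg_left hS hgap
  have h6 := Real.exp_le_exp.2 htY
  have hn : (0 : ℝ) ≤ ((vecs Θ.R d).card : ℝ) := Nat.cast_nonneg _
  have htop : 0 ≤ Θ.top := by linarith [hG.D_le_top]
  have h7 : g (σ e) - t ≤ u + (2 * (((vecs Θ.R d).card : ℝ) + 1) + 4) * Θ.top := by
    rw [hu]; nlinarith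
  have h8 := mul_le_mul_of_nonneg_right h7 (mul_nonneg hd0 (Real.exp_pos Y).le)
  have h9 := mul_lt_mul_of_pos_right hgrow (Real.exp_pos Y)
  nlinarith [Real.exp_pos Y]

omit hG in
/-- Exchanging two slots of equal value keeps a maximizer. -/
theorem isMax_swap {σ : Equiv.Perm (Fin d)} {φ : Fin d → Bool} {g x : Fin d → ℝ}
    (hmax : Θ.IsMax (σ, φ) g x) (s e : Fin d) (hse : g (σ s) = g (σ e)) :
    Θ.IsMax (σ * Equiv.swap s e, φ) g x := by
  set π := Equiv.swap s e with hπ
  have hgπ : ∀ q, g (σ (π q)) = g (σ q) := by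
    intro q
    by_cases h1 : q = s
    · subst h1; rw [hπ, Equiv.swap_apply_left, hse]
    · by_cases h2 : q = e
      · subst h2; rw [hπ, Equiv.swap_apply_right, hse]
      · rw [hπ, Equiv.swap_apply_of_ne_of_ne h1 h2]
  set τ : Equiv.Perm (Fin d) := σ.symm.trans (π.trans σ) with hτ
  have hτσ : ∀ q, τ (σ q) = σ (π q) := fun q => by simp [hτ]
  have hgτ : ∀ i, g (τ i) = g i := fun i => by
    have := hgπ (σ.symm i); simpa [hτ] using this
  have hdot : ∀ w : Fin d → ℝ, dot (w ∘ τ) g = dot w g := by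
    intro w
    unfold dot
    rw [← Equiv.sum_comp τ (fun i => w i * g i)]
    exact Finset.sum_congr rfl fun i _ => by simp [hgτ i]
  refine ⟨⟨fun a b hab => ?_, fun q => ?_⟩, ?_⟩
  · simp only [Function.comp, Equiv.Perm.mul_apply, hgπ]
    exact hmax.1.1 hab
  · have hto : ∀ w ∈ Θ.tests (σ * π) q, w ∘ τ ∈ Θ.tests σ q := by
      intro w hw
      obtain ⟨h1, h2, h3⟩ := (mem_tests Θ).1 hw
      refine (mem_tests Θ).2 ⟨vecs_perm τ h1, by simpa [hτσ] using h2, fun i hi => ?_⟩
      have h4 := h3 (τ i) hi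
      have : (σ * π).symm (τ i) = σ.symm i := by
        rw [Equiv.symm_apply_eq]; simp [hτ]
      rwa [this] at h4
    have hfrom : ∀ w ∈ Θ.tests σ q, w ∘ τ.symm ∈ Θ.tests (σ * π) q := by
      intro w hw
      obtain ⟨h1, h2, h3⟩ := (mem_tests Θ).1 hw
      refine (mem_tests Θ).2 ⟨vecs_perm τ.symm h1, ?_, fun i hi => ?_⟩
      · have : τ.symm ((σ * π) q) = σ q := by rw [Equiv.symm_apply_eq]; simp [hτσ]
        show w (τ.symm ((σ * π) q)) ≠ 0
        rw [this]
        exact h2
      · have h4 := h3 (τ.symm i) hi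
        have : σ.symm (τ.symm i) = (σ * π).symm i := by
          rw [eq_comm, Equiv.symm_apply_eq]; simp [hτ]
        rwa [this] at h4
    have h := hmax.1.2 q
    unfold Par.FeasAt at h ⊢
    simp only at h ⊢
    by_cases hφ : φ q = true
    · rw [if_pos hφ] at h ⊢
      intro w hw
      have := h _ (hto w hw)
      simpa [hdot, hτσ] using this
    · rw [if_neg hφ] at h ⊢
      obtain ⟨w, hw, h0⟩ := h
      refine ⟨_, hfrom w hw, ?_⟩
      rw [← hdot (w ∘ τ.symm)]
      simpa [Function.comp_assoc] using h0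
  · rw [hmax.2]
    unfold Par.val
    simp only [Equiv.Perm.mul_apply, hgπ, Finset.sum_sub_distrib]
    congr 1
    rw [Equiv.sum_comp σ (fun i => x i * g i)]
    have := Equiv.sum_comp (π.trans σ) (fun i => x i * g i)
    simpa [hgπ] using this.symm

/-- The approximation of `log x` by a maximizer. -/
theorem close {σ : Equiv.Perm (Fin d)} {φ : Fin d → Bool} {g x : Fin d → ℝ}
    (hmax : Θ.IsMax (σ, φ) g x) (hx : ∀ i, 0 < x i) (i : Fin d) :
    |Real.log (x i) - g i| ≤ 5 * Θ.top ∧
      ∀ f, φ f = true → Θ.K * |Real.log (x i) - g i| ≤ 5 * Θ.rad φ f := by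
  obtain ⟨s, rfl⟩ : ∃ s, σ s = i := ⟨σ.symm i, by simp⟩
  obtain ⟨p, hps, hpg, hstart⟩ := exists_start hmax.1.1 s
  obtain ⟨e, heg, hend⟩ := exists_stop hmax.1.1 s
  have hup := upper hG hmax hx p hstart s hps
  have hswap := isMax_swap hmax s e heg.symm
  have hend' : ∀ q, e < q → g ((σ * Equiv.swap s e) q) < g ((σ * Equiv.swap s e) e) := by
    intro q hq
    have hqs : q ≠ s := by
      rintro rfl
      exact absurd (hend q hq) (by rw [heg]; exact lt_irrefl _)
    simp only [Equiv.Perm.mul_apply, Equiv.swap_apply_right,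
      Equiv.swap_apply_of_ne_of_ne hqs hq.ne', ← heg]
    exact hend q hq
  have hlo := lower hG hswap hx e hend'
  simp only [Equiv.Perm.mul_apply, Equiv.swap_apply_right] at hlo
  rw [hpg] at hup
  have h1 := hG.slack_nonneg φ p
  have h2 := hG.slack_nonneg φ e
  have hD := hG.D_big
  refine ⟨abs_le.2 ⟨?_, ?_⟩, fun f hf => ?_⟩
  · linarith [hG.slack_le_top φ e, hG.D_le_top]
  · linarith [hG.slack_le_top φ p, hG.D_le_top]
  · have h3 := hG.slack_free p hf
    have h4 := hG.slack_free e hf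
    have h5 := hG.rad_ge φ f
    have hK := hG.K32
    have : |Real.log (x (σ s)) - g (σ s)| ≤ Θ.slack φ p + 3 * Θ.slack φ e + Θ.D :=
      abs_le.2 ⟨by linarith, by linarith⟩
    nlinarith [mul_le_mul_of_nonneg_left this (show (0:ℝ) ≤ Θ.K by linarith)]

/-- The tracked combinations of `log x` follow those of the maximizer. -/
theorem track {σ : Equiv.Perm (Fin d)} {φ : Fin d → Bool} {g x : Fin d → ℝ}
    (hmax : Θ.IsMax (σ, φ) g x) (hx : ∀ i, 0 < x i) {w : Fin d → ℝ}
    (hw : w ∈ baseVec Θ.R) (h : dot w g ≠ 0) :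
    4 * |dot w (fun i => Real.log (x i)) - dot w g| ≤ |dot w g| ∧ c * Θ.D ≤ |dot w g| := by
  obtain ⟨f, hf, hfw⟩ := base_sep hG hmax.1 hw h
  have hK := hG.K32
  have hrad : 0 ≤ Θ.rad φ f := le_trans (by linarith [hG.D_big]) (hG.D_le_rad φ f)
  refine ⟨?_, le_trans (mul_le_mul_of_nonneg_left (hG.D_le_rad φ f) hG.c_pos.le) hfw⟩
  rw [← dot_sub_right]
  have hb := abs_dot_le (w := w) (g := (fun i => Real.log (x i)) - g) (E := 5 * Θ.rad φ f / Θ.K)
    (fun i => by
      rw [le_div_iff₀ (by linarith), mul_comm]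
      exact (close hG hmax hx i).2 f hf)
  have hs := hG.size w hw
  have h1 := mul_le_mul_of_nonneg_right hs (show 0 ≤ 5 * Θ.rad φ f / Θ.K by positivity)
  have h2 : 4 * (C * (5 * Θ.rad φ f / Θ.K)) ≤ c * Θ.rad φ f := by
    rw [mul_div_assoc', mul_div_assoc', div_le_iff₀ (by linarith)]
    nlinarith [mul_le_mul_of_nonneg_left hG.K_big hrad, mul_nonneg hrad (show (0:ℝ) ≤ C by linarith [hG.one_le_C])]
  linarith

end max

end Vale.Agent.P072
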