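import Vale.Agent.P072.Closure

/-! The pieces of the Lyapunov function: an ordering of the coordinates, a kind for each slot,
radii whose exponents depend on the history of kinds. -/

namespace Vale.Agent.P072

open Finset

variable {d : ℕ}

/-- Slots sorted with a kind each: `true` is free, `false` is capped. -/
abbrev Piece (d : ℕ) := Equiv.Perm (Fin d) × (Fin d → Bool)

/-- The part of the exponent recording the capped slots before `p`. -/
def pre (φ : Fin d → Bool) (p : ℕ) : ℕ :=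
  ∑ q : Fin d, if (q : ℕ) < p ∧ φ q = false then 2 ^ (d - (q : ℕ)) else 0

/-- The exponent of slot `p`. -/
def expo (φ : Fin d → Bool) (p : Fin d) : ℕ := pre φ p + 2 ^ (d - (p : ℕ))

theorem pre_mono (φ : Fin d → Bool) {a b : ℕ} (h : a ≤ b) : pre φ a ≤ pre φ b := by
  refine Finset.sum_le_sum fun q _ => ?_
  by_cases hq : (q : ℕ) < a ∧ φ q = false
  · rw [if_pos hq, if_pos ⟨lt_of_lt_of_le hq.1 h, hq.2⟩]
  · rw [if_neg hq]; exact Nat.zero_le _

theorem pre_succ (φ : Fin d → Bool) (p : Fin d) :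
    pre φ ((p : ℕ) + 1) = pre φ p + if φ p = false then 2 ^ (d - (p : ℕ)) else 0 := by
  classical
  unfold pre
  have hsplit : ∀ q : Fin d, (if (q : ℕ) < (p : ℕ) + 1 ∧ φ q = false then 2 ^ (d - (q : ℕ)) else 0)
      = (if (q : ℕ) < (p : ℕ) ∧ φ q = false then 2 ^ (d - (q : ℕ)) else 0)
        + (if q = p then (if φ p = false then 2 ^ (d - (p : ℕ)) else 0) else 0) := by
    intro q
    by_cases hqp : q = p
    · subst hqp; simp
    · have : (q : ℕ) ≠ (p : ℕ) := fun h => hqp (Fin.ext h)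
      have h2 : (q : ℕ) < (p : ℕ) + 1 ↔ (q : ℕ) < (p : ℕ) := by omega
      simp [hqp, h2]
  rw [Finset.sum_congr rfl (fun q _ => hsplit q), Finset.sum_add_distrib]
  simp

theorem hi_step (φ : Fin d → Bool) (p : Fin d) :
    pre φ ((p : ℕ) + 1) + 2 ^ (d - (p : ℕ)) ≤ pre φ p + 2 ^ (d + 1 - (p : ℕ)) := by
  rw [pre_succ]
  have h0 : 0 ≤ 2 ^ (d - (p : ℕ)) := Nat.zero_le _
  have : 2 ^ (d + 1 - (p : ℕ)) = 2 ^ (d - (p : ℕ)) + 2 ^ (d - (p : ℕ)) := by
    rw [show d + 1 - (p : ℕ) = (d - p) + 1 by omega, pow_succ]; ring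
  split <;> omega

theorem hi_anti (φ : Fin d → Bool) {a b : ℕ} (h : a ≤ b) (hb : b ≤ d) :
    pre φ b + 2 ^ (d + 1 - b) ≤ pre φ a + 2 ^ (d + 1 - a) := by
  induction b, h using Nat.le_induction with
  | base => exact le_rfl
  | succ b hab ih =>
    have hbd : b < d := hb
    have := hi_step φ ⟨b, hbd⟩
    simp only at this
    have e : d + 1 - (b + 1) = d - b := by omega
    rw [e]
    exact this.trans (ih hbd.le)

theorem expo_lt_hi (φ : Fin d → Bool) (p : Fin d) :
    expo φ p < pre φ p + 2 ^ (d + 1 - (p : ℕ)) := by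
  have : 2 ^ (d + 1 - (p : ℕ)) = 2 ^ (d - (p : ℕ)) + 2 ^ (d - (p : ℕ)) := by
    rw [show d + 1 - (p : ℕ) = (d - p) + 1 by omega, pow_succ]; ring
  have h2 : 0 < 2 ^ (d - (p : ℕ)) := by positivity
  unfold expo; omega

theorem pre_lt_expo (φ : Fin d → Bool) (p : Fin d) : pre φ p < expo φ p := by
  have h2 : 0 < 2 ^ (d - (p : ℕ)) := by positivity
  unfold expo; omega

theorem expo_pos (φ : Fin d → Bool) (p : Fin d) : 1 ≤ expo φ p := by
  have := pre_lt_expo φ p; omega

theorem expo_le (φ : Fin d → Bool) (p : Fin d) : expo φ p ≤ 2 ^ (d + 1) := by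
  have h := hi_anti φ (Nat.zero_le (p : ℕ)) p.2.le
  have h2 := expo_lt_hi φ p
  have h0 : pre φ 0 = 0 := by simp [pre]
  rw [h0, Nat.sub_zero, Nat.zero_add] at h
  omega

/-- Every capped slot has a smaller exponent than every free one. -/
theorem expo_cap_lt_free (φ : Fin d → Bool) {a f : Fin d} (ha : φ a = false) (hf : φ f = true) :
    expo φ a < expo φ f := by
  rcases lt_trichotomy (a : ℕ) (f : ℕ) with h | h | h
  · have h1 : pre φ ((a : ℕ) + 1) = expo φ a := by rw [pre_succ, if_pos ha]; rfl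
    have h2 := pre_mono φ (show (a : ℕ) + 1 ≤ (f : ℕ) by omega)
    have h3 := pre_lt_expo φ f
    omega
  · obtain rfl : a = f := Fin.ext h
    simp [ha] at hf
  · have h1 := hi_anti φ (show (f : ℕ) + 1 ≤ (a : ℕ) by omega) a.2.le
    have h2 := expo_lt_hi φ a
    have h3 : pre φ ((f : ℕ) + 1) = pre φ f := by rw [pre_succ]; simp [hf]
    have e : d + 1 - ((f : ℕ) + 1) = d - (f : ℕ) := by omega
    rw [h3, e] at h1
    unfold expo at h2 ⊢
    omega

/-- A capped slot has a smaller exponent than the later slots. -/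
theorem expo_cap_lt_later (φ : Fin d → Bool) {a b : Fin d} (ha : φ a = false) (h : a < b) :
    expo φ a < expo φ b := by
  have h1 : pre φ ((a : ℕ) + 1) = expo φ a := by rw [pre_succ, if_pos ha]; rfl
  have h2 := pre_mono φ (show (a : ℕ) + 1 ≤ (b : ℕ) from Fin.lt_def.1 h)
  have h3 := pre_lt_expo φ b
  omega

theorem expo_congr {φ φ' : Fin d → Bool} {p : Fin d} (h : ∀ q, q < p → φ' q = φ q) :
    expo φ' p = expo φ p := by
  unfold expo pre
  congr 1
  refine Finset.sum_congr rfl fun q _ => ?_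
  by_cases hq : (q : ℕ) < (p : ℕ)
  · rw [h q (Fin.lt_def.2 hq)]
  · simp [hq]

/-- The parameters of the construction. -/
structure Par (d : ℕ) where
  R : Finset (Cpx d × Cpx d)
  K : ℝ
  D : ℝ

variable (Θ : Par d)

/-- The radius of slot `p`. -/
def Par.rad (φ : Fin d → Bool) (p : Fin d) : ℝ := Θ.D * Θ.K ^ expo φ p

/-- A bound on all radii. -/
def Par.top : ℝ := Θ.D * Θ.K ^ (2 ^ (d + 1))

/-- The weight of slot `p`. -/
noncomputable def Par.wt (φ : Fin d → Bool) (p : Fin d) : ℝ :=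
  if φ p = true then 1 else Real.exp (-3 * Θ.rad φ p)

/-- The vectors tested at slot `p`: tracked vectors living on slots up to `p`, nonzero at `p`. -/
noncomputable def Par.tests (σ : Equiv.Perm (Fin d)) (p : Fin d) : Finset (Fin d → ℝ) := by
  classical
  exact (vecs Θ.R (d - (p : ℕ))).filter
    (fun w => w (σ p) ≠ 0 ∧ ∀ i, w i ≠ 0 → σ.symm i ≤ p)

/-- The condition at slot `p`. -/
def Par.FeasAt (c : Piece d) (g : Fin d → ℝ) (p : Fin d) : Prop :=
  if c.2 p = true then ∀ w ∈ Θ.tests c.1 p, |w (c.1 p)| * Θ.rad c.2 p ≤ |dot w g|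
  else ∃ w ∈ Θ.tests c.1 p, dot w g = 0

/-- Feasible points of a piece. -/
def Par.Feas (c : Piece d) (g : Fin d → ℝ) : Prop :=
  Antitone (g ∘ c.1) ∧ ∀ p, Θ.FeasAt c g p

/-- The value of a feasible point. -/
noncomputable def Par.val (c : Piece d) (g x : Fin d → ℝ) : ℝ :=
  ∑ s, (x (c.1 s) * g (c.1 s) - Θ.wt c.2 s * Real.exp (g (c.1 s)))

/-- The Lyapunov function. -/
noncomputable def Par.lyap (x : Fin d → ℝ) : ℝ :=
  sSup {v | ∃ c g, Θ.Feas c g ∧ v = Θ.val c g x}

theorem mem_tests {σ : Equiv.Perm (Fin d)} {p : Fin d} {w : Fin d → ℝ} :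
    w ∈ Θ.tests σ p ↔
      w ∈ vecs Θ.R (d - (p : ℕ)) ∧ w (σ p) ≠ 0 ∧ ∀ i, w i ≠ 0 → σ.symm i ≤ p := by
  classical
  simp [Par.tests]

theorem wt_pos (φ : Fin d → Bool) (p : Fin d) : 0 < Θ.wt φ p := by
  unfold Par.wt
  split
  · norm_num
  · exact Real.exp_pos _

theorem val_sub (c : Piece d) (g x z : Fin d → ℝ) :
    Θ.val c g z = Θ.val c g x + ∑ i, g i * (z i - x i) := by
  rw [← Equiv.sum_comp c.1 (fun i => g i * (z i - x i))]
  unfold Par.val
  rw [← Finset.sum_add_distrib]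
  exact Finset.sum_congr rfl fun s _ => by ring

theorem quad_le_exp {t : ℝ} (ht : 0 ≤ t) : t ^ 2 / 2 ≤ Real.exp t := by
  have := Real.quadratic_le_exp_of_nonneg ht
  nlinarith

theorem term_le {m x : ℝ} (hm : 0 < m) (hx : 0 ≤ x) (t : ℝ) :
    x * t - m * Real.exp t ≤ x ^ 2 / (2 * m) := by
  have h0 : 0 ≤ x ^ 2 / (2 * m) := by positivity
  rcases le_total t 0 with ht | ht
  · nlinarith [Real.exp_pos t, mul_nonpos_of_nonneg_of_nonpos hx ht]
  · have h1 := mul_le_mul_of_nonneg_left (quad_le_exp ht) hm.le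
    have h2 : x * t - m * (t ^ 2 / 2) ≤ x ^ 2 / (2 * m) := by
      rw [le_div_iff₀ (by linarith)]
      nlinarith [sq_nonneg (m * t - x)]
    linarith

theorem val_le (c : Piece d) (g : Fin d → ℝ) {x : Fin d → ℝ} (hx : ∀ i, 0 ≤ x i) :
    Θ.val c g x ≤ ∑ s, x (c.1 s) ^ 2 / (2 * Θ.wt c.2 s) :=
  Finset.sum_le_sum fun s _ => term_le (wt_pos Θ c.2 s) (hx _) _

theorem bddAbove_vals {x : Fin d → ℝ} (hx : ∀ i, 0 ≤ x i) :
    BddAbove {v | ∃ c g, Θ.Feas c g ∧ v = Θ.val c g x} := by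
  obtain ⟨B, hB⟩ := (Set.finite_range
    (fun c : Piece d => ∑ s, x (c.1 s) ^ 2 / (2 * Θ.wt c.2 s))).bddAbove
  refine ⟨B, ?_⟩
  rintro v ⟨c, g, -, rfl⟩
  exact (val_le Θ c g hx).trans (hB ⟨c, rfl⟩)

theorem val_le_lyap {c : Piece d} {g x : Fin d → ℝ} (h : Θ.Feas c g) (hx : ∀ i, 0 ≤ x i) :
    Θ.val c g x ≤ Θ.lyap x :=
  le_csSup (bddAbove_vals Θ hx) ⟨c, g, h, rfl⟩

theorem continuous_dot (w : Fin d → ℝ) : Continuous (fun g => dot w g) := by
  unfold dot; fun_prop

theorem isClosed_feas (c : Piece d) : IsClosed {g | Θ.Feas c g} := by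
  have h1 : IsClosed {g : Fin d → ℝ | Antitone (g ∘ c.1)} := by
    simp only [Antitone, Function.comp, Set.ofPred_forall]
    exact isClosed_iInter fun a => isClosed_iInter fun b => isClosed_iInter fun _ =>
      isClosed_le (continuous_apply _) (continuous_apply _)
  have h2 : ∀ p, IsClosed {g | Θ.FeasAt c g p} := by
    intro p
    unfold Par.FeasAt
    split
    · simp only [Set.ofPred_forall]
      exact isClosed_biInter fun w _ => isClosed_le continuous_const (continuous_dot w).abs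
    · have : {g | ∃ w ∈ Θ.tests c.1 p, dot w g = 0}
          = ⋃ w ∈ Θ.tests c.1 p, {g | dot w g = 0} := by ext g; simp
      rw [this]
      exact isClosed_biUnion_finset fun w _ => isClosed_eq (continuous_dot w) continuous_const
  have : {g | Θ.Feas c g} = {g | Antitone (g ∘ c.1)} ∩ ⋂ p, {g | Θ.FeasAt c g p} := by
    ext g; simp [Par.Feas]
  rw [this]
  exact h1.inter (isClosed_iInter h2)

/-- For a positive point the supremum is attained. -/
theorem exists_isMax {x : Fin d → ℝ} (hx : ∀ i, 0 < x i)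
    (hne : ∃ c g, Θ.Feas c g) :
    ∃ c g, Θ.Feas c g ∧ Θ.lyap x = Θ.val c g x := by
  classical
  obtain ⟨c₀, g₀, h₀⟩ := hne
  let v₀ := Θ.val c₀ g₀ x
  let A : Piece d → Set (Fin d → ℝ) := fun c => {g | Θ.Feas c g ∧ v₀ ≤ Θ.val c g x}
  have hcont : ∀ c, Continuous (fun g => Θ.val c g x) := fun c => by
    unfold Par.val; fun_prop
  have hA : ∀ c, IsCompact (A c) := by
    intro c
    let B := fun s => x (c.1 s) ^ 2 / (2 * Θ.wt c.2 s)
    let Cb := ∑ s, B s - v₀
    have key : ∀ g ∈ A c, ∀ s, -Cb ≤ x (c.1 s) * g (c.1 s) - Θ.wt c.2 s * Real.exp (g (c.1 s)) := by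
      intro g hg s
      have h1 : ∑ t ∈ univ.erase s,
          (x (c.1 t) * g (c.1 t) - Θ.wt c.2 t * Real.exp (g (c.1 t))) ≤ ∑ t, B t := by
        refine (Finset.sum_le_sum fun t _ => term_le (wt_pos Θ c.2 t) (hx _).le _).trans ?_
        exact Finset.sum_le_sum_of_subset_of_nonneg (erase_subset _ _)
          (fun t _ _ => by have := wt_pos Θ c.2 t; positivity)
      have h2 := hg.2
      rw [Par.val, ← Finset.add_sum_erase _ _ (mem_univ s)] at h2
      simp only [Cb]; linarith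
    let lo : Fin d → ℝ := fun i => min 0 (-Cb / x i)
    let hi : Fin d → ℝ := fun i =>
      max 1 (2 * (x i + |Cb|) / Θ.wt c.2 (c.1.symm i))
    refine (isCompact_Icc (a := lo) (b := hi)).of_isClosed_subset
      ((isClosed_feas Θ c).inter (isClosed_le continuous_const (hcont c))) ?_
    intro g hg
    refine ⟨fun i => ?_, fun i => ?_⟩
    · have hk := key g hg (c.1.symm i)
      rw [Equiv.apply_symm_apply] at hk
      simp only [lo]
      rcases le_total 0 (g i) with h | h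
      · exact (min_le_left _ _).trans h
      · refine (min_le_right _ _).trans ?_
        rw [div_le_iff₀ (hx i)]
        nlinarith [mul_pos (wt_pos Θ c.2 (c.1.symm i)) (Real.exp_pos (g i))]
    · have hk := key g hg (c.1.symm i)
      rw [Equiv.apply_symm_apply] at hk
      simp only [hi]
      rcases le_total (g i) 1 with h | h
      · exact h.trans (le_max_left _ _)
      · refine le_trans ?_ (le_max_right _ _)
        have hm := wt_pos Θ c.2 (c.1.symm i)
        rw [le_div_iff₀ hm]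
        have h1 := mul_le_mul_of_nonneg_left (quad_le_exp (zero_le_one.trans h)) hm.le
        have h2 : Θ.wt c.2 (c.1.symm i) * g i ^ 2 / 2 ≤ (x i + |Cb|) * g i := by
          nlinarith [le_abs_self Cb, abs_nonneg Cb,
            mul_le_mul_of_nonneg_left h (abs_nonneg Cb)]
        by_contra hcon
        have h3 := mul_lt_mul_of_pos_right (lt_of_not_ge hcon) (show 0 < g i by linarith)
        nlinarith
  let S : Finset (Piece d) := univ.filter fun c => (A c).Nonempty
  have hS : c₀ ∈ S := by simp only [S, mem_filter, mem_univ, true_and]; exact ⟨g₀, h₀, le_rfl⟩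
  have hex : ∀ c, ∃ g, (A c).Nonempty → g ∈ A c ∧ ∀ g' ∈ A c, Θ.val c g' x ≤ Θ.val c g x := by
    intro c
    by_cases h : (A c).Nonempty
    · obtain ⟨g, hg, hmax⟩ := (hA c).exists_isMaxOn h (hcont c).continuousOn
      exact ⟨g, fun _ => ⟨hg, fun g' hg' => hmax hg'⟩⟩
    · exact ⟨0, fun h' => absurd h' h⟩
  choose G hG using hex
  obtain ⟨c, hc, hmax⟩ := Finset.exists_max_image S (fun c => Θ.val c (G c) x) ⟨c₀, hS⟩
  have hcne : (A c).Nonempty := (mem_filter.1 hc).2
  refine ⟨c, G c, (hG c hcne).1.1, le_antisymm ?_ (val_le_lyap Θ (hG c hcne).1.1 fun i => (hx i).le)⟩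
  refine csSup_le ⟨_, c, G c, (hG c hcne).1.1, rfl⟩ ?_
  rintro v ⟨c', g', hf, rfl⟩
  by_cases hv : v₀ ≤ Θ.val c' g' x
  · exact ((hG c' ⟨g', hf, hv⟩).2 g' ⟨hf, hv⟩).trans
      (hmax c' (mem_filter.2 ⟨mem_univ _, g', hf, hv⟩))
  · exact (le_of_not_ge hv).trans (hG c hcne).1.2

end Vale.Agent.P072
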